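import Vale.Agent.P370Z.DISC.Sm

/-! Envelopes and the regularised kernel along a line. -/

namespace Vale.Agent.P370Z.DISC

open MeasureTheory Set

noncomputable section

/-! ### Envelopes -/

/-- the envelope `((t - c)² + s²)^(-1/2)` -/
def psi (c s t : ℝ) : ℝ := 1 / √((t - c) ^ 2 + s ^ 2)

theorem psi_nonneg (c s t : ℝ) : 0 ≤ psi c s t := by unfold psi; positivity

theorem psi_pos {s : ℝ} (hs : 0 < s) (c t : ℝ) : 0 < psi c s t := by unfold psi; positivity

theorem continuous_psi (c : ℝ) {s : ℝ} (hs : 0 < s) : Continuous (psi c s) := by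
  unfold psi
  refine continuous_const.div (by fun_prop) fun t => ?_
  positivity

theorem psi_le_inv {s : ℝ} (hs : 0 < s) (c t : ℝ) : psi c s t ≤ 1 / s := by
  unfold psi
  refine one_div_le_one_div_of_le hs (Real.le_sqrt_of_sq_le ?_)
  nlinarith [sq_nonneg (t - c)]

theorem psi_comp {s : ℝ} (hs : 0 < s) (c : ℝ) {t t' : ℝ} (h : |t - t'| ≤ 2 * s) :
    psi c s t ≤ 3 * psi c s t' := by
  unfold psi
  have h1 : 0 < √((t - c) ^ 2 + s ^ 2) := by positivity
  have h2 : 0 < √((t' - c) ^ 2 + s ^ 2) := by positivity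
  rw [mul_one_div, div_le_div_iff₀ h1 h2, one_mul]
  have h3 : (t - t') ^ 2 ≤ (2 * s) ^ 2 := sq_le_sq' (abs_le.1 h).1 (abs_le.1 h).2
  refine Real.sqrt_le_iff.2 ⟨by positivity, ?_⟩
  rw [mul_pow, Real.sq_sqrt (by positivity)]
  nlinarith [sq_nonneg ((t - c) + (t - t')), sq_nonneg (t - c), sq_nonneg s]

theorem psi_le_two {s : ℝ} (hs : 0 < s) (c t : ℝ) : psi c s t ≤ 2 / (|t - c| + s) := by
  unfold psi
  have h1 : 0 < √((t - c) ^ 2 + s ^ 2) := by positivity
  rw [div_le_div_iff₀ h1 (by positivity), one_mul]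
  have a1 : |t - c| ≤ √((t - c) ^ 2 + s ^ 2) :=
    Real.le_sqrt_of_sq_le (by rw [sq_abs]; nlinarith [sq_nonneg s])
  have a2 : s ≤ √((t - c) ^ 2 + s ^ 2) :=
    Real.le_sqrt_of_sq_le (by nlinarith [sq_nonneg (t - c)])
  linarith

theorem integral_psi_right {s r : ℝ} (hs : 0 < s) (hr : 0 ≤ r) (c : ℝ) :
    ∫ t in c..(c + r), psi c s t ≤ 2 * Real.log (1 + r / s) := by
  have hd : ∀ t ∈ uIcc c (c + r), HasDerivAt (fun t => 2 * Real.log (t - c + s))
      (2 / (t - c + s)) t := by
    intro t ht
    rw [uIcc_of_le (by linarith)] at ht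
    have h1 : HasDerivAt (fun t : ℝ => t - c + s) 1 t := ((hasDerivAt_id t).sub_const c).add_const s
    refine HasDerivAt.congr_deriv ((h1.log (by linarith [ht.1])).const_mul 2) ?_
    ring
  have hi : IntervalIntegrable (fun t => 2 / (t - c + s)) volume c (c + r) := by
    refine ContinuousOn.intervalIntegrable ?_
    refine continuousOn_const.div (by fun_prop) fun t ht => ?_
    rw [uIcc_of_le (by linarith)] at ht
    linarith [ht.1]
  calc ∫ t in c..(c + r), psi c s t ≤ ∫ t in c..(c + r), 2 / (t - c + s) := by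
        refine intervalIntegral.integral_mono_on (by linarith)
          ((continuous_psi c hs).intervalIntegrable _ _) hi fun t ht => ?_
        have := psi_le_two hs c t
        rwa [abs_of_nonneg (by linarith [ht.1])] at this
    _ = 2 * Real.log (1 + r / s) := by
        rw [intervalIntegral.integral_eq_sub_of_hasDerivAt hd hi]
        have e : 1 + r / s = (c + r - c + s) / (c - c + s) := by
          rw [sub_self, zero_add, add_sub_cancel_left]; field_simp; ring
        rw [e, Real.log_div (by linarith) (by linarith)]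
        ring

theorem integral_psi_left {s r : ℝ} (hs : 0 < s) (hr : 0 ≤ r) (c : ℝ) :
    ∫ t in (c - r)..c, psi c s t ≤ 2 * Real.log (1 + r / s) := by
  have h := intervalIntegral.integral_comp_sub_left (psi c s) (a := c) (b := c + r) (2 * c)
  have e1 : 2 * c - (c + r) = c - r := by ring
  have e2 : 2 * c - c = c := by ring
  rw [e1, e2] at h
  rw [← h]
  have e : ∀ x, psi c s (2 * c - x) = psi c s x := fun x => by
    unfold psi; congr 2; ring
  simp only [e]
  exact integral_psi_right hs hr c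

theorem integral_psi {s r : ℝ} (hs : 0 < s) (hr : 0 < r) (c : ℝ) :
    ∫ t in (-r)..r, psi c s t ≤ 2 + 4 * Real.log (1 + r / s) := by
  have hc := continuous_psi c hs
  have hle : ∀ t, psi c s t ≤ 1 / r + (Ioc (c - r) (c + r)).indicator (psi c s) t := by
    intro t
    by_cases ht : t ∈ Ioc (c - r) (c + r)
    · rw [indicator_of_mem ht]
      have : 0 ≤ 1 / r := by positivity
      linarith
    · rw [indicator_of_notMem ht, add_zero]
      unfold psi
      refine one_div_le_one_div_of_le hr (Real.le_sqrt_of_sq_le ?_)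
      rw [mem_Ioc, not_and_or, not_lt, not_le] at ht
      rcases ht with h | h <;> nlinarith [sq_nonneg s]
  have hI : IntegrableOn (psi c s) (Ioc (c - r) (c + r)) :=
    (hc.integrableOn_Icc).mono_set Ioc_subset_Icc_self
  have hI' : Integrable ((Ioc (c - r) (c + r)).indicator (psi c s)) :=
    (integrable_indicator_iff measurableSet_Ioc).2 hI
  calc ∫ t in (-r)..r, psi c s t
      ≤ ∫ t in (-r)..r, (1 / r + (Ioc (c - r) (c + r)).indicator (psi c s) t) :=
        intervalIntegral.integral_mono_on (by linarith) (hc.intervalIntegrable _ _)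
          (intervalIntegrable_const.add hI'.intervalIntegrable) fun t _ => hle t
    _ = 2 + ∫ t in (-r)..r, (Ioc (c - r) (c + r)).indicator (psi c s) t := by
        rw [intervalIntegral.integral_add intervalIntegrable_const hI'.intervalIntegrable]
        congr 1
        rw [intervalIntegral.integral_const, smul_eq_mul]
        field_simp
        ring
    _ ≤ 2 + ∫ t in (c - r)..(c + r), psi c s t := by
        gcongr
        rw [intervalIntegral.integral_of_le (by linarith), intervalIntegral.integral_of_le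
          (by linarith), ← integral_indicator (s := Ioc (c - r) (c + r)) measurableSet_Ioc]
        exact setIntegral_le_integral hI' (Filter.Eventually.of_forall fun t =>
          indicator_nonneg (fun t _ => psi_nonneg _ _ _) t)
    _ ≤ _ := by
        rw [← intervalIntegral.integral_add_adjacent_intervals (b := c)
          (hc.intervalIntegrable _ _) (hc.intervalIntegrable _ _)]
        linarith [integral_psi_left hs hr.le c, integral_psi_right hs hr.le c]

/-- the envelope used in the three directions -/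
def env (c s t : ℝ) : ℝ := psi c s t + psi 0 1 t

theorem env_nonneg (c s t : ℝ) : 0 ≤ env c s t := add_nonneg (psi_nonneg _ _ _) (psi_nonneg _ _ _)

theorem continuous_env (c : ℝ) {s : ℝ} (hs : 0 < s) : Continuous (env c s) :=
  (continuous_psi c hs).add (continuous_psi 0 one_pos)

theorem env_comp {s : ℝ} (hs : 0 < s) (hs1 : s ≤ 1) (c : ℝ) {t t' : ℝ} (h : |t - t'| ≤ 2 * s) :
    env c s t ≤ 3 * env c s t' := by
  have h1 := psi_comp hs c h
  have h2 := psi_comp one_pos 0 (t := t) (t' := t') (by linarith)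
  unfold env; linarith

theorem integral_env {m l Lm : ℕ} {s M : ℝ} (hm : 1 ≤ m) (hl : 1 ≤ l) (hL : l ≤ Lm)
    (hs : 1 / (m : ℝ) ≤ s) (hM : 2 ≤ M) (hlog : Real.log (m * Lm) ≤ M) (c : ℝ) :
    ∫ t in (-(l : ℝ))..l, env c s t ≤ 14 * M := by
  have hm' : (1 : ℝ) ≤ m := by exact_mod_cast hm
  have hl' : (1 : ℝ) ≤ l := by exact_mod_cast hl
  have hL' : (l : ℝ) ≤ Lm := by exact_mod_cast hL
  have hs0 : 0 < s := lt_of_lt_of_le (by positivity) hs
  have key : ∀ s' : ℝ, 1 / (m : ℝ) ≤ s' → Real.log (1 + l / s') ≤ 1 + M := by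
    intro s' hs'
    have hs0' : 0 < s' := lt_of_lt_of_le (by positivity) hs'
    have h1 : (l : ℝ) / s' ≤ m * Lm := by
      rw [div_le_iff₀ hs0']
      rw [div_le_iff₀ (by positivity)] at hs'
      nlinarith
    have h2 : (1 : ℝ) ≤ m * Lm := by nlinarith
    calc Real.log (1 + l / s') ≤ Real.log (2 * (m * Lm)) :=
          Real.log_le_log (by positivity) (by linarith)
      _ = Real.log 2 + Real.log (m * Lm) := Real.log_mul (by norm_num) (by positivity)
      _ ≤ 1 + M := by
          have := Real.log_le_sub_one_of_pos (by norm_num : (0 : ℝ) < 2)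
          linarith
  unfold env
  rw [intervalIntegral.integral_add ((continuous_psi c hs0).intervalIntegrable _ _)
    ((continuous_psi 0 one_pos).intervalIntegrable _ _)]
  have h1 := integral_psi hs0 (by linarith : (0 : ℝ) < l) c
  have h2 := integral_psi one_pos (by linarith : (0 : ℝ) < l) 0
  have h3 := key s hs
  have h4 := key 1 (by rw [div_le_one (by positivity)]; exact hm')
  linarith

/-! ### The kernel along a line -/

theorem sm_psi {s d : ℝ} (hd : 0 < d) (c : ℝ) {S : Set ℝ}
    (h : ∀ t ∈ S, d ≤ √((t - c) ^ 2 + s ^ 2)) : Sm (psi c s) S (1 / d) (4 / d) := by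
  let r : ℝ → ℝ := psi c s
  refine ⟨fun t => -((t - c) * r t ^ 3), fun t => -(r t ^ 3) + 3 * ((t - c) ^ 2 * r t ^ 5),
    fun t => 9 * ((t - c) * r t ^ 5) - 15 * ((t - c) ^ 3 * r t ^ 7),
    fun t => 9 * r t ^ 5 - 90 * ((t - c) ^ 2 * r t ^ 7) + 105 * ((t - c) ^ 4 * r t ^ 9),
    fun t ht => ?_⟩
  have hq : 0 < √((t - c) ^ 2 + s ^ 2) := hd.trans_le (h t ht)
  have hu : 0 < (t - c) ^ 2 + s ^ 2 := Real.sqrt_pos.1 hq
  have hid : HasDerivAt (fun t : ℝ => t - c) 1 t := (hasDerivAt_id t).sub_const c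
  have hr : HasDerivAt r (-((t - c) * r t ^ 3)) t := by
    have h1 : HasDerivAt (fun t : ℝ => (t - c) ^ 2 + s ^ 2) (2 * (t - c)) t := by
      refine HasDerivAt.congr_deriv ((hid.pow 2).add_const (s ^ 2)) ?_
      simp
    refine HasDerivAt.congr_deriv
      ((hasDerivAt_const t (1 : ℝ)).div (h1.sqrt hu.ne') hq.ne') ?_
    simp only [r, psi]
    field_simp
    ring
  have r0 : 0 < r t := by simp only [r, psi]; positivity
  have r1 : r t ≤ 1 / d := one_div_le_one_div_of_le hd (h t ht)
  have r2 : |t - c| * r t ≤ 1 := by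
    simp only [r, psi]
    rw [mul_one_div, div_le_one hq]
    exact Real.le_sqrt_of_sq_le (by rw [sq_abs]; nlinarith [sq_nonneg s])
  set w := |t - c| * r t with hw
  have w0 : 0 ≤ w := by positivity
  have e4 : 4 / d = 4 * (1 / d) := by ring
  have D0 : 0 ≤ 1 / d := by positivity
  set D := 1 / d with hD
  have ab : ∀ i j : ℕ, |(t - c) ^ i * r t ^ (i + j)| ≤ D ^ j := by
    intro i j
    rw [abs_mul, abs_pow, abs_pow, abs_of_pos r0, pow_add, ← mul_assoc, ← mul_pow, ← hw]
    calc w ^ i * r t ^ j ≤ 1 ^ i * D ^ j := by gcongr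
      _ = _ := by simp
  rw [e4]
  beta_reduce
  refine ⟨hr, ?_, ?_, ?_, ?_, ?_, ?_, ?_, ?_⟩
  · refine HasDerivAt.congr_deriv ((hid.mul (hr.pow 3)).neg) ?_
    simp only [Pi.pow_apply, Nat.cast_ofNat, Nat.add_one_sub_one]
    ring
  · refine HasDerivAt.congr_deriv ((hr.pow 3).neg.add
      (((hid.pow 2).mul (hr.pow 5)).const_mul 3)) ?_
    simp only [Pi.pow_apply, Nat.cast_ofNat, Nat.add_one_sub_one]
    ring
  · refine HasDerivAt.congr_deriv (((hid.mul (hr.pow 5)).const_mul 9).sub
      (((hid.pow 3).mul (hr.pow 7)).const_mul 15)) ?_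
    simp only [Pi.pow_apply, Nat.cast_ofNat, Nat.add_one_sub_one]
    ring
  · rw [abs_of_pos r0]; exact r1
  · have := abs_le.1 (ab 1 2)
    simp only [pow_one, Nat.reduceAdd] at this
    have e : D * (4 * D) = 4 * D ^ 2 := by ring
    have h0 : 0 ≤ D ^ 2 := by positivity
    rw [abs_le, e]; constructor <;> linarith [this.1, this.2]
  · have h1 := abs_le.1 (ab 0 3)
    have h2 := abs_le.1 (ab 2 3)
    simp only [pow_zero, one_mul, Nat.reduceAdd] at h1 h2
    have e : D * (4 * D) ^ 2 = 16 * D ^ 3 := by ring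
    have : 0 ≤ D ^ 3 := by positivity
    rw [abs_le, e]; constructor <;> linarith [h1.1, h1.2, h2.1, h2.2]
  · have h1 := abs_le.1 (ab 1 4)
    have h2 := abs_le.1 (ab 3 4)
    simp only [pow_one, Nat.reduceAdd] at h1 h2
    have e : D * (4 * D) ^ 3 = 64 * D ^ 4 := by ring
    have : 0 ≤ D ^ 4 := by positivity
    rw [abs_le, e]; constructor <;> linarith [h1.1, h1.2, h2.1, h2.2]
  · have h1 := abs_le.1 (ab 0 5)
    have h2 := abs_le.1 (ab 2 5)
    have h3 := abs_le.1 (ab 4 5)
    simp only [pow_zero, one_mul, Nat.reduceAdd] at h1 h2 h3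
    have e : D * (4 * D) ^ 4 = 256 * D ^ 5 := by ring
    have : 0 ≤ D ^ 5 := by positivity
    rw [abs_le, e]; constructor <;> linarith [h1.1, h1.2, h2.1, h2.2, h3.1, h3.2]

end

end Vale.Agent.P370Z.DISC
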