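import Vale.Agent.P370Z.DISC.Line
import Vale.Agent.P370Z.DISC.Env

/-! Coordinates adapted to one direction; iterated integrals and sums; the nested rule. -/

namespace Vale.Agent.P370Z.DISC

open MeasureTheory Set

noncomputable section

/-- the point with coordinate `t` at the place `i`, and `u`, `v` at the two other places -/
def mk3 {α : Type} (i : Fin 3) (t u v : α) : Fin 3 → α :=
  ![![t, u, v], ![u, t, v], ![u, v, t]] i

/-- the first of the two other places -/
def a1 (i : Fin 3) : Fin 3 := ![1, 0, 0] i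

/-- the second of the two other places -/
def a2 (i : Fin 3) : Fin 3 := ![2, 2, 1] i

section Alg

variable {α : Type} (i : Fin 3) (t u v w : α)

@[simp] theorem mk_same : mk3 i t u v i = t := by fin_cases i <;> rfl

@[simp] theorem mk_a1 : mk3 i t u v (a1 i) = u := by fin_cases i <;> rfl

@[simp] theorem mk_a2 : mk3 i t u v (a2 i) = v := by fin_cases i <;> rfl

theorem a1_ne : a1 i ≠ i := by fin_cases i <;> decide

theorem a2_ne : a2 i ≠ i := by fin_cases i <;> decide

theorem mk_eta (y : Fin 3 → α) : mk3 i (y i) (y (a1 i)) (y (a2 i)) = y := by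
  funext k; fin_cases i <;> fin_cases k <;> rfl

theorem update_mk_same : Function.update (mk3 i t u v) i w = mk3 i w u v := by
  funext k; fin_cases i <;> fin_cases k <;> rfl

theorem update_mk_a1 : Function.update (mk3 i t u v) (a1 i) w = mk3 i t w v := by
  funext k; fin_cases i <;> fin_cases k <;> rfl

theorem update_mk_a2 : Function.update (mk3 i t u v) (a2 i) w = mk3 i t u w := by
  funext k; fin_cases i <;> fin_cases k <;> rfl

theorem update_eq_mk (y : Fin 3 → α) : Function.update y i w = mk3 i w (y (a1 i)) (y (a2 i)) := by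
  funext k; fin_cases i <;> fin_cases k <;> rfl

theorem forall_three {P : Fin 3 → Prop} (h0 : P i) (h1 : P (a1 i)) (h2 : P (a2 i)) (k : Fin 3) :
    P k := by
  fin_cases i <;> fin_cases k <;> assumption

theorem prod_three (f : Fin 3 → ℝ) : ∏ k, f k = f i * (f (a1 i) * f (a2 i)) := by
  rw [Fin.prod_univ_three]
  fin_cases i <;> simp [a1, a2] <;> ring

theorem sum_three (f : Fin 3 → ℝ) : ∑ k, f k = f i + (f (a1 i) + f (a2 i)) := by
  rw [Fin.sum_univ_three]
  fin_cases i <;> simp [a1, a2] <;> ring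

end Alg

theorem continuous_mk (i : Fin 3) :
    Continuous fun p : ℝ × ℝ × ℝ => mk3 i p.1 p.2.1 p.2.2 := by
  refine continuous_pi fun k => ?_
  fin_cases i <;> fin_cases k <;> simp [mk3] <;> fun_prop

theorem insertNth_eq (i : Fin 3) (t u v : ℝ) :
    Fin.insertNth (α := fun _ => ℝ) i t ![u, v] = mk3 i t u v := by
  funext k; fin_cases i <;> fin_cases k <;> rfl

/-- the measurable equivalence given by `mk3` -/
def mkE (i : Fin 3) : ℝ × ℝ × ℝ ≃ᵐ P3 :=
  ((MeasurableEquiv.refl ℝ).prodCongr MeasurableEquiv.finTwoArrow.symm).trans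
    (MeasurableEquiv.piFinSuccAbove (fun _ : Fin 3 => ℝ) i).symm

theorem mkE_apply (i : Fin 3) (p : ℝ × ℝ × ℝ) : mkE i p = mk3 i p.1 p.2.1 p.2.2 := by
  rw [← insertNth_eq]; rfl

theorem mkE_mp (i : Fin 3) : MeasurePreserving (mkE i) volume volume := by
  have h1 : MeasurePreserving ((MeasurableEquiv.refl ℝ).prodCongr
      (MeasurableEquiv.finTwoArrow (α := ℝ)).symm) volume volume :=
    (MeasurePreserving.id volume).prod (volume_preserving_finTwoArrow ℝ).symm
  exact ((volume_preserving_piFinSuccAbove (fun _ : Fin 3 => ℝ) i).symm).comp h1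

theorem integral_box (i : Fin 3) (l : Fin 3 → ℕ) {g : P3 → ℝ} (hg : Continuous g) :
    ∫ y in box l, g y = ∫ t in (-(l i : ℝ))..(l i), ∫ u in (-(l (a1 i) : ℝ))..(l (a1 i)),
      ∫ v in (-(l (a2 i) : ℝ))..(l (a2 i)), g (mk3 i t u v) := by
  have hpre : mkE i ⁻¹' box l = Icc (-(l i : ℝ)) (l i) ×ˢ (Icc (-(l (a1 i) : ℝ)) (l (a1 i)) ×ˢ
      Icc (-(l (a2 i) : ℝ)) (l (a2 i))) := by
    ext p
    simp only [mem_preimage, mkE_apply, box, mem_ofPred_eq, mem_prod, mem_Icc, ← abs_le]
    constructor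
    · intro h
      exact ⟨by simpa using h i, by simpa using h (a1 i), by simpa using h (a2 i)⟩
    · rintro ⟨h0, h1, h2⟩
      exact forall_three i (by simpa using h0) (by simpa using h1) (by simpa using h2)
  have hc : Continuous fun p : ℝ × ℝ × ℝ => g (mk3 i p.1 p.2.1 p.2.2) := hg.comp (continuous_mk i)
  rw [← (mkE_mp i).setIntegral_preimage_emb (mkE i).measurableEmbedding, hpre]
  simp only [mkE_apply]
  have n0 : ∀ k, -(l k : ℝ) ≤ l k := fun k => by
    have : (0 : ℝ) ≤ l k := Nat.cast_nonneg _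
    linarith
  rw [Measure.volume_eq_prod, setIntegral_prod _ (by
    rw [← Measure.volume_eq_prod]
    exact hc.continuousOn.integrableOn_compact (isCompact_Icc.prod (isCompact_Icc.prod
      isCompact_Icc))), intervalIntegral.integral_of_le (n0 _), integral_Icc_eq_integral_Ioc]
  refine setIntegral_congr_fun measurableSet_Ioc fun t _ => ?_
  have hc2 : Continuous fun q : ℝ × ℝ => g (mk3 i t q.1 q.2) :=
    hc.comp (continuous_const.prodMk continuous_id)
  simp only
  rw [Measure.volume_eq_prod, setIntegral_prod _ (by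
    rw [← Measure.volume_eq_prod]
    exact hc2.continuousOn.integrableOn_compact (isCompact_Icc.prod isCompact_Icc)),
    intervalIntegral.integral_of_le (n0 _), integral_Icc_eq_integral_Ioc]
  refine setIntegral_congr_fun measurableSet_Ioc fun u _ => ?_
  simp only
  rw [intervalIntegral.integral_of_le (n0 _), integral_Icc_eq_integral_Ioc]

theorem sum_nodes (i : Fin 3) (m : ℕ) (l : Fin 3 → ℕ) (f : (Fin 3 → ℕ) → ℝ) :
    ∑ n ∈ nodes m l, f n = ∑ c ∈ Finset.range (6 * m * l (a2 i)),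
      ∑ b ∈ Finset.range (6 * m * l (a1 i)), ∑ a ∈ Finset.range (6 * m * l i), f (mk3 i a b c) := by
  rw [← Finset.sum_product', ← Finset.sum_product']
  refine Finset.sum_nbij' (fun n => ((n (a2 i), n (a1 i)), n i))
    (fun p => mk3 i p.2 p.1.2 p.1.1) ?_ ?_ ?_ ?_ ?_
  · intro n hn
    simp only [nodes, Fintype.mem_piFinset] at hn
    simp only [Finset.mem_product]
    exact ⟨⟨hn _, hn _⟩, hn _⟩
  · intro p hp
    simp only [Finset.mem_product] at hp
    simp only [nodes, Fintype.mem_piFinset]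
    exact forall_three i (by simpa using hp.2) (by simpa using hp.1.2) (by simpa using hp.1.1)
  · intro n _
    exact mk_eta i n
  · intro p _
    simp
  · intro n _
    simp only [mk_eta]

/-- the point charges of one family as an iterated rule -/
theorem sum_nodes_Q1 (i : Fin 3) {m : ℕ} (hm : 1 ≤ m) (l : Fin 3 → ℕ) (ρ : ℝ)
    (G : ℝ → ℝ → ℝ → ℝ) :
    ∑ n ∈ nodes m l, ρ / (512 * (m : ℝ) ^ 3) * ((∏ k, wt (n k) : ℕ) : ℝ) *
        G (xi m (l i) (n i)) (xi m (l (a1 i)) (n (a1 i))) (xi m (l (a2 i)) (n (a2 i))) =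
      Q1 m (l (a2 i)) fun v => Q1 m (l (a1 i)) fun u => ρ * Q1 m (l i) fun t => G t u v := by
  have hm' : (m : ℝ) ≠ 0 := by positivity
  rw [sum_nodes i]
  simp only [Q1, Finset.mul_sum]
  refine Finset.sum_congr rfl fun c _ => Finset.sum_congr rfl fun b _ =>
    Finset.sum_congr rfl fun a _ => ?_
  rw [Nat.cast_prod, prod_three i]
  simp only [mk_same, mk_a1, mk_a2]
  field_simp
  ring

theorem abs_integral_le {a : ℝ} (ha : 0 ≤ a) {f g : ℝ → ℝ} (hg : Continuous g)
    (h : ∀ t, |f t| ≤ g t) : |∫ t in (-a)..a, f t| ≤ ∫ t in (-a)..a, g t := by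
  have := intervalIntegral.norm_integral_le_of_norm_le (f := f) (g := g) (μ := volume)
    (by linarith : -a ≤ a) (Filter.Eventually.of_forall fun t _ => h t) (hg.intervalIntegrable _ _)
  simpa using this

/-- the nested rule -/
theorem nested {m l1 l2 l3 : ℕ} {G : ℝ → ℝ → ℝ → ℝ}
    (hG : Continuous fun p : ℝ × ℝ × ℝ => G p.1 p.2.1 p.2.2) {Qt : ℝ → ℝ → ℝ}
    {E1 E2 E3 : ℝ → ℝ} {c J : ℝ} (hc : 0 ≤ c) (hJ : 0 ≤ J) (c1 : Continuous E1)
    (c2 : Continuous E2) (p3 : ∀ t, 0 ≤ E3 t)
    (i1 : ∫ t in (-(l1 : ℝ))..l1, E1 t ≤ J) (i2 : ∫ t in (-(l2 : ℝ))..l2, E2 t ≤ J)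
    (p1 : ∀ t, 0 ≤ E1 t) (q2 : Q1 m l2 E2 ≤ 3 * J) (q3 : Q1 m l3 E3 ≤ 3 * J)
    (h3 : ∀ t u, |Q1 m l3 (G t u) - ∫ v in (-(l3 : ℝ))..l3, G t u v| ≤ c * (E1 t * E2 u))
    (h2 : ∀ t v, |Q1 m l2 (fun u => G t u v) - ∫ u in (-(l2 : ℝ))..l2, G t u v| ≤
      c * (E1 t * E3 v))
    (h1 : ∀ u v, |Qt u v - ∫ t in (-(l1 : ℝ))..l1, G t u v| ≤ c * (E2 u * E3 v)) :
    |(Q1 m l3 fun v => Q1 m l2 fun u => Qt u v) -
      ∫ t in (-(l1 : ℝ))..l1, ∫ u in (-(l2 : ℝ))..l2, ∫ v in (-(l3 : ℝ))..l3, G t u v| ≤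
      13 * c * J ^ 2 := by
  have n1 : (0 : ℝ) ≤ l1 := Nat.cast_nonneg _
  have n2 : (0 : ℝ) ≤ l2 := Nat.cast_nonneg _
  have g12 : ∀ v, Continuous fun p : ℝ × ℝ => G p.1 p.2 v := fun v =>
    hG.comp (continuous_fst.prodMk (continuous_snd.prodMk continuous_const))
  have g1 : ∀ u v, Continuous fun t => G t u v := fun u v =>
    (g12 v).comp (continuous_id.prodMk continuous_const)
  have g2 : ∀ t v, Continuous fun u => G t u v := fun t v =>
    (g12 v).comp (continuous_const.prodMk continuous_id)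
  have k3 : Continuous fun p : ℝ × ℝ => ∫ v in (-(l3 : ℝ))..l3, G p.1 p.2 v :=
    intervalIntegral.continuous_parametric_intervalIntegral_of_continuous'
      (f := fun (p : ℝ × ℝ) v => G p.1 p.2 v)
      (hG.comp ((continuous_fst.comp continuous_fst).prodMk
        ((continuous_snd.comp continuous_fst).prodMk continuous_snd))) _ _
  have k3' : Continuous fun p : ℝ × ℝ => Q1 m l3 (G p.1 p.2) := continuous_Q1 g12
  have par : ∀ {K : ℝ → ℝ → ℝ}, (Continuous fun p : ℝ × ℝ => K p.1 p.2) →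
      Continuous fun t => ∫ u in (-(l2 : ℝ))..l2, K t u := fun {K} hK =>
    intervalIntegral.continuous_parametric_intervalIntegral_of_continuous'
      (f := K) hK _ _
  have k4 : ∀ t, Continuous fun u => ∫ v in (-(l3 : ℝ))..l3, G t u v := fun t =>
    k3.comp (continuous_const.prodMk continuous_id)
  have k4' : ∀ t, Continuous fun u => Q1 m l3 (G t u) := fun t =>
    k3'.comp (continuous_const.prodMk continuous_id)
  -- the three steps
  have s3 : |(∫ t in (-(l1 : ℝ))..l1, ∫ u in (-(l2 : ℝ))..l2, Q1 m l3 (G t u)) -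
      ∫ t in (-(l1 : ℝ))..l1, ∫ u in (-(l2 : ℝ))..l2, ∫ v in (-(l3 : ℝ))..l3, G t u v| ≤
      c * J ^ 2 := by
    rw [← intervalIntegral.integral_sub
      ((par (K := fun t u => Q1 m l3 (G t u)) k3').intervalIntegrable _ _)
      ((par (K := fun t u => ∫ v in (-(l3 : ℝ))..l3, G t u v) k3).intervalIntegrable _ _)]
    refine (abs_integral_le n1 (g := fun t => c * J * E1 t) (by fun_prop) fun t => ?_).trans ?_
    · rw [← intervalIntegral.integral_sub
        ((k4' t).intervalIntegrable _ _) ((k4 t).intervalIntegrable _ _)]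
      refine (abs_integral_le n2 (g := fun u => c * E1 t * E2 u) (by fun_prop)
        fun u => (h3 t u).trans_eq (by ring)).trans ?_
      rw [intervalIntegral.integral_const_mul]
      have := p1 t
      calc c * E1 t * ∫ u in (-(l2 : ℝ))..l2, E2 u ≤ c * E1 t * J := by gcongr
        _ = _ := by ring
    · rw [intervalIntegral.integral_const_mul]
      calc c * J * ∫ t in (-(l1 : ℝ))..l1, E1 t ≤ c * J * J := by gcongr
        _ = _ := by ring
  have e3 : (∫ t in (-(l1 : ℝ))..l1, ∫ u in (-(l2 : ℝ))..l2, Q1 m l3 (G t u)) =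
      Q1 m l3 fun v => ∫ t in (-(l1 : ℝ))..l1, ∫ u in (-(l2 : ℝ))..l2, G t u v := by
    rw [← integral_Q1 (G := fun t v => ∫ u in (-(l2 : ℝ))..l2, G t u v) 
      fun v => par (K := fun t u => G t u v) (g12 v)]
    congr 1
    funext t
    exact integral_Q1 (G := fun u v => G t u v) (g2 t) _ _
  have s2 : |(Q1 m l3 fun v => Q1 m l2 fun u => ∫ t in (-(l1 : ℝ))..l1, G t u v) -
      Q1 m l3 fun v => ∫ t in (-(l1 : ℝ))..l1, ∫ u in (-(l2 : ℝ))..l2, G t u v| ≤
      3 * c * J ^ 2 := by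
    rw [← Q1_sub]
    refine (abs_Q1_le (g := fun v => c * J * E3 v) fun v => ?_).trans ?_
    · rw [← integral_Q1 (G := fun t u => G t u v) fun u => g1 u v,
        ← intervalIntegral.integral_sub
          ((continuous_Q1 (G := fun t u => G t u v) fun u => g1 u v).intervalIntegrable _ _)
          ((par (K := fun t u => G t u v) (g12 v)).intervalIntegrable _ _)]
      refine (abs_integral_le n1 (g := fun t => c * E3 v * E1 t) (by fun_prop)
        fun t => (h2 t v).trans_eq (by ring)).trans ?_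
      rw [intervalIntegral.integral_const_mul]
      have := p3 v
      calc c * E3 v * ∫ u in (-(l1 : ℝ))..l1, E1 u ≤ c * E3 v * J := by gcongr
        _ = _ := by ring
    · rw [Q1_const_mul]
      calc c * J * Q1 m l3 E3 ≤ c * J * (3 * J) := by gcongr
        _ = _ := by ring
  have s1 : |(Q1 m l3 fun v => Q1 m l2 fun u => Qt u v) -
      Q1 m l3 fun v => Q1 m l2 fun u => ∫ t in (-(l1 : ℝ))..l1, G t u v| ≤ 9 * c * J ^ 2 := by
    rw [← Q1_sub]
    refine (abs_Q1_le (g := fun v => c * (3 * J) * E3 v) fun v => ?_).trans ?_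
    · rw [← Q1_sub]
      refine (abs_Q1_le (g := fun u => c * E3 v * E2 u)
        fun u => (h1 u v).trans_eq (by ring)).trans ?_
      rw [Q1_const_mul]
      have := p3 v
      calc c * E3 v * Q1 m l2 E2 ≤ c * E3 v * (3 * J) := by gcongr
        _ = _ := by ring
    · rw [Q1_const_mul]
      calc c * (3 * J) * Q1 m l3 E3 ≤ c * (3 * J) * (3 * J) := by gcongr
        _ = _ := by ring
  rw [e3] at s3
  have := abs_le.1 s1
  have := abs_le.1 s2
  have := abs_le.1 s3
  rw [abs_le]; constructor <;> linarith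

end

end Vale.Agent.P370Z.DISC
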