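import Vale.Agent.P370Z.DISC.Coord

/-! The quadrature error of one family of nodes, for functions controlled along lines. -/

namespace Vale.Agent.P370Z.DISC

open MeasureTheory Set

noncomputable section

/-! ### Functions with bounded derivatives along lines -/

/-- `f` vanishes as soon as one coordinate is large -/
def Van (L : Fin 3 → ℝ) (f : P3 → ℝ) : Prop := ∀ x k, L k < |x k| → f x = 0

theorem Van.of_supp {L : Fin 3 → ℝ} {f : P3 → ℝ} (h : ∀ x, f x ≠ 0 → ∀ k, |x k| ≤ L k) :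
    Van L f := fun x k hk => by
  by_contra h0
  exact absurd (h x h0 k) (not_le.2 hk)

theorem Van.pd {L : Fin 3 → ℝ} {f : P3 → ℝ} (h : Van L f) (i : Fin 3) : Van L (pd i f) := by
  intro x k hk
  have ho : IsOpen {z : P3 | L k < |z k|} := isOpen_lt continuous_const (by fun_prop)
  have he : f =ᶠ[nhds x] fun _ => 0 := by
    filter_upwards [ho.mem_nhds hk] with z hz using h z k hz
  simp [Vale.Agent.P370Z.pd, he.fderiv_eq]

theorem bdm_cont {n : ℕ} {C : ℝ} {f : P3 → ℝ} (h : BdM n C f) : Continuous f := by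
  cases n with
  | zero => exact h.1
  | succ n => exact h.1.continuous

theorem bdm_bound {n : ℕ} {C : ℝ} {f : P3 → ℝ} (h : BdM n C f) (x : P3) : |f x| ≤ C := by
  cases n with
  | zero => exact h.2 x
  | succ n => exact h.2.1 x

theorem bdm_pred : ∀ {n : ℕ} {C : ℝ} {f : P3 → ℝ}, BdM (n + 1) C f → BdM n C f
  | 0, _, _, h => ⟨h.1.continuous, h.2.1⟩
  | _ + 1, _, _, h => ⟨h.1, h.2.1, fun i => bdm_pred (h.2.2 i)⟩

theorem hasDerivAt_line {f : P3 → ℝ} (hf : Differentiable ℝ f) (y : P3) (k : Fin 3) (t : ℝ) :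
    HasDerivAt (fun t => f (Function.update y k t)) (pd k f (Function.update y k t)) t :=
  (hf _).hasFDerivAt.comp_hasDerivAt t (hasDerivAt_update y k t)

open Classical in
/-- one near the support, zero far from it -/
def th (L0 : ℝ) (y : P3) : ℝ := if ∀ k, |y k| ≤ L0 + 2 then 1 else 0

theorem th_cases (L0 : ℝ) (y : P3) : th L0 y = 0 ∨ th L0 y = 1 := by
  unfold th; split_ifs <;> simp

theorem th_nonneg (L0 : ℝ) (y : P3) : 0 ≤ th L0 y := by
  rcases th_cases L0 y with h | h <;> simp [h]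

theorem th_le_one (L0 : ℝ) (y : P3) : th L0 y ≤ 1 := by
  rcases th_cases L0 y with h | h <;> simp [h]

theorem th_pow (L0 : ℝ) (y : P3) (j : ℕ) : th L0 y * th L0 y ^ j = th L0 y := by
  rcases th_cases L0 y with h | h <;> simp [h]

theorem bound_th {L0 C : ℝ} {f : P3 → ℝ} (hb : ∀ x, |f x| ≤ C) (hv : Van (fun _ => L0) f)
    (y : P3) (k : Fin 3) {t : ℝ} (ht : t ∈ Icc (y k - 2) (y k + 2)) :
    |f (Function.update y k t)| ≤ C * th L0 y := by
  unfold th
  split_ifs with h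
  · simpa using hb _
  · push Not at h
    obtain ⟨j, hj⟩ := h
    rw [hv _ j, mul_zero, abs_zero]
    by_cases e : j = k
    · subst e
      rw [Function.update_self]
      have h1 : |y j| ≤ |t| + |y j - t| := by
        calc |y j| = |t + (y j - t)| := by ring_nf
          _ ≤ _ := abs_add_le _ _
      have h2 : |y j - t| ≤ 2 := by rw [abs_le]; constructor <;> linarith [ht.1, ht.2]
      linarith
    · rw [Function.update_of_ne e]; linarith

theorem sm_line_th {L0 C : ℝ} {f : P3 → ℝ} (hf : BdM 4 C f) (hv : Van (fun _ => L0) f)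
    (y : P3) (k : Fin 3) :
    Sm (fun t => f (Function.update y k t)) (Icc (y k - 2) (y k + 2)) (C * th L0 y) (th L0 y) := by
  have h1 := hf.2.2 k
  have h2 := h1.2.2 k
  have h3 := h2.2.2 k
  have h4 := h3.2.2 k
  refine ⟨fun t => pd k f (Function.update y k t), fun t => pd k (pd k f) (Function.update y k t),
    fun t => pd k (pd k (pd k f)) (Function.update y k t),
    fun t => pd k (pd k (pd k (pd k f))) (Function.update y k t), fun t ht =>
    ⟨hasDerivAt_line hf.1 y k t, hasDerivAt_line h1.1 y k t, hasDerivAt_line h2.1 y k t,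
      hasDerivAt_line h3.1 y k t, bound_th hf.2.1 hv y k ht, ?_, ?_, ?_, ?_⟩⟩
  · have := th_pow L0 y 1
    rw [pow_one] at this
    rw [mul_assoc, this]
    exact bound_th h1.2.1 (hv.pd k) y k ht
  · rw [mul_assoc, th_pow]
    exact bound_th h2.2.1 ((hv.pd k).pd k) y k ht
  · rw [mul_assoc, th_pow]
    exact bound_th h3.2.1 (((hv.pd k).pd k).pd k) y k ht
  · rw [mul_assoc, th_pow]
    exact bound_th h4.2 ((((hv.pd k).pd k).pd k).pd k) y k ht

/-- control of `g` along the coordinate lines by the envelope `E` -/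
def LineOK (g : P3 → ℝ) (h L0 : ℝ) (E : P3 → ℝ) : Prop :=
  ∀ (k : Fin 3) (y : P3), ∃ A B : ℝ, 0 ≤ B ∧
    Sm (fun t => g (Function.update y k t)) (Icc (y k - 2 * h) (y k + 2 * h)) A B ∧
    A * (2 * B + 12 * th L0 y) ^ 4 ≤ E y

/-! ### The displacement -/

/-- the map whose inverse displaces the nodes -/
def lam (F : P3 → ℝ) (ρ : ℝ) (i : Fin 3) (u v t : ℝ) : ℝ := t + pd i F (mk3 i t u v) / ρ

/-- its derivative -/
def aa (F : P3 → ℝ) (ρ : ℝ) (i : Fin 3) (u v t : ℝ) : ℝ := 1 + pd i (pd i F) (mk3 i t u v) / ρ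

theorem hasDerivAt_mk {f : P3 → ℝ} (hf : Differentiable ℝ f) (i : Fin 3) (t u v : ℝ) :
    HasDerivAt (fun t => f (mk3 i t u v)) (pd i f (mk3 i t u v)) t := by
  have := hasDerivAt_line hf (mk3 i 0 u v) i t
  simpa only [update_mk_same] using this

/-- the data which are fixed in this file -/
structure Dat (F : P3 → ℝ) (CF ρ L0 : ℝ) (l : Fin 3 → ℕ) (X : Fin 3 → ℝ → ℝ → ℝ → ℝ) : Prop where
  bd : BdM 6 CF F
  cf : 1 ≤ CF
  rho : 2 * CF ≤ ρ
  van : Van (fun k => (l k : ℝ) - 1) F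
  van0 : Van (fun _ => L0) F
  right : ∀ i u v ξ, lam F ρ i u v (X i u v ξ) = ξ
  left : ∀ i u v t, X i u v (lam F ρ i u v t) = t
  der : ∀ i u v ξ, HasDerivAt (X i u v) (1 / aa F ρ i u v (X i u v ξ)) ξ
  lip : ∀ i u v t t', |t - t'| ≤ 2 * |lam F ρ i u v t - lam F ρ i u v t'|

section

variable {F : P3 → ℝ} {CF ρ L0 : ℝ} {l : Fin 3 → ℕ} {X : Fin 3 → ℝ → ℝ → ℝ → ℝ}

theorem abs_div_rho (hCF : 1 ≤ CF) (hρ : 2 * CF ≤ ρ) {z θ : ℝ} (hθ : 0 ≤ θ) (h : |z| ≤ CF * θ) :
    |z / ρ| ≤ θ / 2 := by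
  have h0 : 0 < ρ := by linarith
  rw [abs_div, abs_of_pos h0, div_le_iff₀ h0]
  nlinarith

theorem aa_bounds (hF : BdM 6 CF F) (hCF : 1 ≤ CF) (hρ : 2 * CF ≤ ρ) (i : Fin 3) (u v t : ℝ) :
    1 / 2 ≤ aa F ρ i u v t ∧ aa F ρ i u v t ≤ 3 / 2 := by
  have := abs_le.1 (abs_div_rho hCF hρ zero_le_one
    ((((hF.2.2 i).2.2 i).2.1 (mk3 i t u v)).trans_eq (mul_one _).symm))
  unfold aa
  constructor <;> linarith [this.1, this.2]

theorem hasDerivAt_lam (hF : BdM 6 CF F) (i : Fin 3) (u v t : ℝ) :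
    HasDerivAt (lam F ρ i u v) (aa F ρ i u v t) t :=
  (hasDerivAt_id t).add ((hasDerivAt_mk (hF.2.2 i).1 i t u v).div_const ρ)

theorem exists_dat (hF : BdM 6 CF F) (hCF : 1 ≤ CF) (hρ : 2 * CF ≤ ρ)
    (h1 : Van (fun k => (l k : ℝ) - 1) F) (h2 : Van (fun _ => L0) F) :
    ∃ X, Dat F CF ρ L0 l X := by
  have := fun i u v => exists_inv (hasDerivAt_lam (ρ := ρ) hF i u v)
    (fun t => (aa_bounds hF hCF hρ i u v t).1)
  choose X a b c d using this
  exact ⟨X, hF, hCF, hρ, h1, h2, a, b, c, d⟩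

theorem continuous_mk1 (i : Fin 3) (u v : ℝ) : Continuous fun t : ℝ => mk3 i t u v :=
  (continuous_mk i).comp (continuous_id.prodMk (continuous_const (y := (u, v))))

theorem continuous_mk2 (i : Fin 3) (t v : ℝ) : Continuous fun u : ℝ => mk3 i t u v :=
  (continuous_mk i).comp ((continuous_const (y := t)).prodMk
    (continuous_id.prodMk (continuous_const (y := v))))

theorem continuous_mk3 (i : Fin 3) (t u : ℝ) : Continuous fun v : ℝ => mk3 i t u v :=
  (continuous_mk i).comp ((continuous_const (y := t)).prodMk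
    ((continuous_const (y := u)).prodMk continuous_id))

namespace Dat

variable (D : Dat F CF ρ L0 l X)
include D

theorem rho_pos : 0 < ρ := by linarith [D.cf, D.rho]

theorem bdA (i : Fin 3) : BdM 4 CF (pd i (pd i F)) := (D.bd.2.2 i).2.2 i

theorem contX (i : Fin 3) (u v : ℝ) : Continuous (X i u v) :=
  continuous_iff_continuousAt.2 fun ξ => (D.der i u v ξ).continuousAt

theorem cont_aa (i : Fin 3) (u v : ℝ) : Continuous (aa F ρ i u v) :=
  continuous_const.add (((bdm_cont (D.bdA i)).comp (continuous_mk1 i u v)).div_const ρ)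

theorem lipX (i : Fin 3) (u v ξ ξ' : ℝ) : |X i u v ξ - X i u v ξ'| ≤ 2 * |ξ - ξ'| := by
  have := D.lip i u v (X i u v ξ) (X i u v ξ')
  rwa [D.right, D.right] at this

theorem lip_lam (i : Fin 3) (u v t t' : ℝ) :
    |lam F ρ i u v t - lam F ρ i u v t'| ≤ 3 / 2 * |t - t'| := by
  have := (convex_univ (𝕜 := ℝ) (E := ℝ)).norm_image_sub_le_of_norm_hasDerivWithin_le
    (f := lam F ρ i u v) (f' := aa F ρ i u v) (C := 3 / 2)
    (fun x _ => (hasDerivAt_lam D.bd i u v x).hasDerivWithinAt) (fun x _ => by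
      have := aa_bounds D.bd D.cf D.rho i u v x
      rw [Real.norm_eq_abs, abs_le]; constructor <;> linarith [this.1, this.2])
    (mem_univ t') (mem_univ t)
  simpa using this

theorem lam_end (i : Fin 3) (u v : ℝ) {t : ℝ} (ht : |t| = l i) : lam F ρ i u v t = t := by
  unfold lam
  rw [D.van.pd i _ i (by simp [ht]), zero_div, add_zero]

/-- change of variables -/
theorem cov (i : Fin 3) (u v : ℝ) {φ : ℝ → ℝ} (hφ : Continuous φ) :
    ∫ ξ in (-(l i : ℝ))..(l i), φ (X i u v ξ) =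
      ∫ t in (-(l i : ℝ))..(l i), φ t * aa F ρ i u v t := by
  have := intervalIntegral.integral_comp_mul_deriv (a := -(l i : ℝ)) (b := l i)
    (f := lam F ρ i u v) (f' := aa F ρ i u v) (g := fun ξ => φ (X i u v ξ))
    (fun t _ => hasDerivAt_lam D.bd i u v t) (D.cont_aa i u v).continuousOn
    (hφ.comp (D.contX i u v))
  rw [D.lam_end i u v (by simp), D.lam_end i u v (by simp)] at this
  rw [← this]
  simp only [Function.comp, D.left]

theorem cov_le (i : Fin 3) (u v : ℝ) {φ : ℝ → ℝ} (hφ : Continuous φ) (h0 : ∀ t, 0 ≤ φ t) :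
    ∫ ξ in (-(l i : ℝ))..(l i), φ (X i u v ξ) ≤ 3 / 2 * ∫ t in (-(l i : ℝ))..(l i), φ t := by
  have n0 : (0 : ℝ) ≤ l i := Nat.cast_nonneg _
  rw [D.cov i u v hφ, ← intervalIntegral.integral_const_mul]
  refine intervalIntegral.integral_mono_on (by linarith)
    ((hφ.mul (D.cont_aa i u v)).intervalIntegrable _ _)
    ((continuous_const.mul hφ).intervalIntegrable _ _) fun t _ => ?_
  have := (aa_bounds D.bd D.cf D.rho i u v t).2
  have := h0 t
  nlinarith

/-- a line in a direction along which the nodes are not displaced -/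
theorem sm_dens (i k : Fin 3) {g E : P3 → ℝ} {h : ℝ} (h0 : 0 ≤ h) (h1 : h ≤ 1)
    (hg : LineOK g h L0 E) (y : P3) :
    ∃ A B : ℝ, Sm (fun t => (ρ + pd i (pd i F) (Function.update y k t)) *
      g (Function.update y k t)) (Icc (y k - h) (y k + h)) A B ∧ A * B ^ 4 ≤ 2 * ρ * E y := by
  obtain ⟨A, B, hB, hS, hE⟩ := hg k y
  have hθ := th_nonneg L0 y
  have hθ1 := th_le_one L0 y
  have s1 := (sm_line_th (D.bdA i) ((D.van0.pd i).pd i) y k).mono_set
    (s' := Icc (y k - h) (y k + h)) (Icc_subset_Icc (by linarith) (by linarith))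
  have s2 := (Sm.const ρ (Icc (y k - h) (y k + h)) hθ).add s1
  have s3 := hS.mono_set (s' := Icc (y k - h) (y k + h))
    (Icc_subset_Icc (by linarith) (by linarith))
  have hA : 0 ≤ A := (abs_nonneg _).trans (s3.bound (t := y k) ⟨by linarith, by linarith⟩)
  refine ⟨_, _, s2.mul s3, ?_⟩
  have hρ := D.rho_pos
  have hcf := D.cf
  have hr := D.rho
  rw [abs_of_pos hρ]
  have e1 : ρ + CF * th L0 y ≤ 2 * ρ := by nlinarith
  calc (ρ + CF * th L0 y) * A * (th L0 y + B) ^ 4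
      ≤ 2 * ρ * A * (2 * B + 12 * th L0 y) ^ 4 := by
        have e2 : th L0 y + B ≤ 2 * B + 12 * th L0 y := by linarith
        gcongr
    _ = 2 * ρ * (A * (2 * B + 12 * th L0 y) ^ 4) := by ring
    _ ≤ _ := by gcongr

/-- a line in the direction of the displacement -/
theorem sm_adapt (i : Fin 3) (u v : ℝ) {g E : P3 → ℝ} {h : ℝ} (h0 : 0 ≤ h) (h1 : h ≤ 1)
    (hg : LineOK g h L0 E) (ξ : ℝ) :
    ∃ A B : ℝ, Sm (fun ξ => g (mk3 i (X i u v ξ) u v)) (Icc (ξ - h) (ξ + h)) A B ∧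
      A * B ^ 4 ≤ E (mk3 i (X i u v ξ) u v) := by
  set y := mk3 i (X i u v ξ) u v with hy
  obtain ⟨A, B, hB, hS, hE⟩ := hg i y
  have hyi : y i = X i u v ξ := by simp [hy]
  have hθ := th_nonneg L0 y
  have b0 := D.bdA i
  have b1 := b0.2.2 i
  have b2 := b1.2.2 i
  have b3 := b2.2.2 i
  have v0 := (D.van0.pd i).pd i
  have hsub : Icc (y i - 2 * h) (y i + 2 * h) ⊆ Icc (y i - 2) (y i + 2) :=
    Icc_subset_Icc (by linarith) (by linarith)
  have up : ∀ t, Function.update y i t = mk3 i t u v := fun t => update_mk_same i _ u v t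
  have key := hS.comp_inv (X := X i u v) (a := aa F ρ i u v)
    (a1 := fun t => pd i (pd i (pd i F)) (mk3 i t u v) / ρ)
    (a2 := fun t => pd i (pd i (pd i (pd i F))) (mk3 i t u v) / ρ)
    (a3 := fun t => pd i (pd i (pd i (pd i (pd i F)))) (mk3 i t u v) / ρ) hB (th_cases L0 y)
    (D.der i u v) (fun t => (aa_bounds D.bd D.cf D.rho i u v t).1)
    (fun t => ((hasDerivAt_mk b0.1 i t u v).div_const ρ).const_add 1)
    (fun t => (hasDerivAt_mk b1.1 i t u v).div_const ρ)
    (fun t => (hasDerivAt_mk b2.1 i t u v).div_const ρ)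
    (fun t ht => abs_div_rho D.cf D.rho hθ (by
      rw [← up]; exact bound_th b1.2.1 (v0.pd i) y i (hsub ht)))
    (fun t ht => abs_div_rho D.cf D.rho hθ (by
      rw [← up]; exact bound_th b2.2.1 ((v0.pd i).pd i) y i (hsub ht)))
    (fun t ht => abs_div_rho D.cf D.rho hθ (by
      rw [← up]; exact bound_th b3.2.1 (((v0.pd i).pd i).pd i) y i (hsub ht)))
  simp only [up] at key
  refine ⟨_, _, key.mono_set fun ξ' hξ' => ?_, hE⟩
  have h2 := D.lipX i u v ξ' ξ
  have h3 : |ξ' - ξ| ≤ h := by rw [abs_le]; constructor <;> linarith [hξ'.1, hξ'.2]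
  have h4 := abs_le.1 (h2.trans (mul_le_mul_of_nonneg_left h3 (by norm_num)))
  simp only [mem_ofPred_eq, mem_Icc, hyi]
  constructor <;> linarith [h4.1, h4.2]

end Dat

end

/-- the product envelope -/
def envP (c : P3) (s : ℝ) (y : P3) : ℝ := ∏ k, env (c k) s (y k)

theorem envP_mk (c : P3) (s : ℝ) (i : Fin 3) (t u v : ℝ) :
    envP c s (mk3 i t u v) = env (c i) s t * (env (c (a1 i)) s u * env (c (a2 i)) s v) := by
  rw [envP, prod_three i]; simp

theorem envP_nonneg (c : P3) (s : ℝ) (y : P3) : 0 ≤ envP c s y :=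
  Finset.prod_nonneg fun _ _ => env_nonneg _ _ _

/-- the sizes -/
structure Siz (m Lm : ℕ) (l : Fin 3 → ℕ) (M : ℝ) : Prop where
  m1 : 1 ≤ m
  l1 : ∀ k, 1 ≤ l k
  lL : ∀ k, l k ≤ Lm
  M2 : 2 ≤ M
  log : Real.log (m * Lm) ≤ M

theorem Siz.h_le {m Lm : ℕ} {l : Fin 3 → ℕ} {M : ℝ} (S : Siz m Lm l M) : 1 / (m : ℝ) ≤ 1 := by
  have : (1 : ℝ) ≤ m := by exact_mod_cast S.m1
  rw [div_le_one (by positivity)]; exact this

theorem Q1_env {m Lm : ℕ} {l : Fin 3 → ℕ} {M s : ℝ} (S : Siz m Lm l M) (hs : 1 / (m : ℝ) ≤ s)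
    (hs1 : s ≤ 1) (c : ℝ) (k : Fin 3) : Q1 m (l k) (env c s) ≤ 3 * (14 * M) := by
  have hm : (0 : ℝ) < m := by have := S.m1; positivity
  have hs0 : 0 < s := lt_of_lt_of_le (by positivity) hs
  refine (Q1_le S.m1 (l k) (E := fun t => 3 * env c s t)
    (continuous_const.mul (continuous_env c hs0))
    fun t t' h => env_comp hs0 hs1 c (by linarith)).trans ?_
  rw [intervalIntegral.integral_const_mul]
  have := integral_env S.m1 (S.l1 k) (S.lL k) hs S.M2 S.log c
  linarith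

/-- the point charges of the family `i` at the exact nodes -/
def nuX (m : ℕ) (ρ : ℝ) (l : Fin 3 → ℕ) (X : Fin 3 → ℝ → ℝ → ℝ → ℝ) (i : Fin 3)
    (g : P3 → ℝ) : ℝ :=
  Q1 m (l (a2 i)) fun v => Q1 m (l (a1 i)) fun u => ρ * Q1 m (l i) fun ξ => g (mk3 i (X i u v ξ) u v)

/-- quadrature error of one family -/
theorem core {F : P3 → ℝ} {CF ρ L0 : ℝ} {l : Fin 3 → ℕ} {X : Fin 3 → ℝ → ℝ → ℝ → ℝ}
    (D : Dat F CF ρ L0 l X) {m Lm : ℕ} {M s c : ℝ} (S : Siz m Lm l M) (hs : 1 / (m : ℝ) ≤ s)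
    (hs1 : s ≤ 1) (hc : 0 ≤ c) (cc : P3) {g : P3 → ℝ} (hg : Continuous g)
    (hL : LineOK g (1 / m) L0 fun y => c * envP cc s y) (i : Fin 3) :
    |nuX m ρ l X i g - ∫ y in box l, (ρ + pd i (pd i F) y) * g y| ≤
      52 * ρ * c * (14 * M) ^ 3 / (m : ℝ) ^ 4 := by
  have hm : (0 : ℝ) < m := by have := S.m1; positivity
  have hs0 : 0 < s := lt_of_lt_of_le (by positivity) hs
  have hρ := D.rho_pos
  have hM := S.M2
  have hh : (0 : ℝ) ≤ 1 / m := by positivity
  have cG : Continuous fun y => (ρ + pd i (pd i F) y) * g y :=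
    (continuous_const.add (bdm_cont (D.bdA i))).mul hg
  have ie : ∀ k, ∫ t in (-(l k : ℝ))..(l k), env (cc k) s t ≤ 14 * M := fun k =>
    integral_env S.m1 (S.l1 k) (S.lL k) hs S.M2 S.log _
  have ce : ∀ k, Continuous (env (cc k) s) := fun k => continuous_env _ hs0
  have pe : ∀ k t, 0 ≤ env (cc k) s t := fun k t => env_nonneg _ _ _
  rw [integral_box i l cG]
  have key := nested (m := m) (l1 := l i) (l2 := l (a1 i)) (l3 := l (a2 i))
    (G := fun t u v => (ρ + pd i (pd i F) (mk3 i t u v)) * g (mk3 i t u v))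
    (cG.comp (continuous_mk i))
    (Qt := fun u v => ρ * Q1 m (l i) fun ξ => g (mk3 i (X i u v ξ) u v))
    (E1 := env (cc i) s) (E2 := env (cc (a1 i)) s) (E3 := env (cc (a2 i)) s)
    (c := 4 * ρ * c * (14 * M) / (m : ℝ) ^ 4) (J := 14 * M) (by positivity) (by positivity)
    (ce _) (ce _) (pe _) (ie _) (ie _) (pe _) (Q1_env S hs hs1 _ _) (Q1_env S hs hs1 _ _) ?_ ?_ ?_
  · refine key.trans_eq ?_
    ring
  · intro t u
    refine (Q1_err S.m1 (l (a2 i))
      (E := fun v => 2 * ρ * c * (env (cc i) s t * env (cc (a1 i)) s u) * env (cc (a2 i)) s v)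
      (cG.comp (continuous_mk3 i t u)) (continuous_const.mul (ce _)) fun v => ?_).trans ?_
    · obtain ⟨A, B, h1, h2⟩ := D.sm_dens i (a2 i) hh S.h_le hL (mk3 i t u v)
      simp only [update_mk_a2, mk_a2, envP_mk] at h1 h2
      exact ⟨A, B, h1, h2.trans_eq (by ring)⟩
    · rw [intervalIntegral.integral_const_mul]
      have := pe i t
      have := pe (a1 i) u
      have := ie (a2 i)
      calc _ ≤ 2 / (m : ℝ) ^ 4 * (2 * ρ * c * (env (cc i) s t * env (cc (a1 i)) s u) * (14 * M)) := by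
            gcongr
        _ = _ := by ring
  · intro t v
    refine (Q1_err S.m1 (l (a1 i))
      (E := fun u => 2 * ρ * c * (env (cc i) s t * env (cc (a2 i)) s v) * env (cc (a1 i)) s u)
      (cG.comp (continuous_mk2 i t v)) (continuous_const.mul (ce _)) fun u => ?_).trans ?_
    · obtain ⟨A, B, h1, h2⟩ := D.sm_dens i (a1 i) hh S.h_le hL (mk3 i t u v)
      simp only [update_mk_a1, mk_a1, envP_mk] at h1 h2
      exact ⟨A, B, h1, h2.trans_eq (by ring)⟩
    · rw [intervalIntegral.integral_const_mul]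
      have := pe i t
      have := pe (a2 i) v
      have := ie (a1 i)
      calc _ ≤ 2 / (m : ℝ) ^ 4 * (2 * ρ * c * (env (cc i) s t * env (cc (a2 i)) s v) * (14 * M)) := by
            gcongr
        _ = _ := by ring
  · intro u v
    have cg : Continuous fun t => g (mk3 i t u v) := hg.comp (continuous_mk1 i u v)
    have e1 : ∫ t in (-(l i : ℝ))..(l i), (ρ + pd i (pd i F) (mk3 i t u v)) * g (mk3 i t u v) =
        ρ * ∫ ξ in (-(l i : ℝ))..(l i), g (mk3 i (X i u v ξ) u v) := by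
      rw [D.cov i u v cg, ← intervalIntegral.integral_const_mul]
      congr 1
      funext t
      unfold aa
      field_simp
    rw [e1, ← mul_sub, abs_mul, abs_of_pos hρ]
    have h3 := Q1_err S.m1 (l i) (g := fun ξ => g (mk3 i (X i u v ξ) u v))
      (E := fun ξ => c * (env (cc (a1 i)) s u * env (cc (a2 i)) s v) * env (cc i) s (X i u v ξ))
      (cg.comp (D.contX i u v)) (continuous_const.mul ((ce _).comp (D.contX i u v))) fun ξ => by
        obtain ⟨A, B, h1, h2⟩ := D.sm_adapt i u v hh S.h_le hL ξ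
        simp only [envP_mk] at h2
        exact ⟨A, B, h1, h2.trans_eq (by ring)⟩
    rw [intervalIntegral.integral_const_mul] at h3
    have h4 := (D.cov_le i u v (ce i) (pe i)).trans
      (mul_le_mul_of_nonneg_left (ie i) (by norm_num))
    have := pe (a1 i) u
    have := pe (a2 i) v
    calc _ ≤ ρ * (2 / (m : ℝ) ^ 4 * (c * (env (cc (a1 i)) s u * env (cc (a2 i)) s v) *
          (3 / 2 * (14 * M)))) := by
          refine mul_le_mul_of_nonneg_left (h3.trans ?_) hρ.le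
          gcongr
      _ = 3 * ρ * c * (14 * M) / (m : ℝ) ^ 4 * (env (cc (a1 i)) s u * env (cc (a2 i)) s v) := by
          ring
      _ ≤ _ := by gcongr; norm_num

/-- the point charges applied to the envelope -/
theorem nuX_env {F : P3 → ℝ} {CF ρ L0 : ℝ} {l : Fin 3 → ℕ} {X : Fin 3 → ℝ → ℝ → ℝ → ℝ}
    (D : Dat F CF ρ L0 l X) {m Lm : ℕ} {M s : ℝ} (S : Siz m Lm l M) (hs : 1 / (m : ℝ) ≤ s)
    (hs1 : s ≤ 1) (cc : P3) (i : Fin 3) :
    nuX m ρ l X i (envP cc s) ≤ 41 * ρ * (14 * M) ^ 3 := by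
  have hm : (0 : ℝ) < m := by have := S.m1; positivity
  have hs0 : 0 < s := lt_of_lt_of_le (by positivity) hs
  have hρ := D.rho_pos
  have hM := S.M2
  have ce : ∀ k, Continuous (env (cc k) s) := fun k => continuous_env _ hs0
  have pe : ∀ k t, 0 ≤ env (cc k) s t := fun k t => env_nonneg _ _ _
  have h1 : ∀ u v, Q1 m (l i) (fun ξ => env (cc i) s (X i u v ξ)) ≤ 9 / 2 * (14 * M) := by
    intro u v
    refine (Q1_le S.m1 (l i) (E := fun ξ => 3 * env (cc i) s (X i u v ξ))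
      (continuous_const.mul ((ce i).comp (D.contX i u v)))
      fun t t' h => env_comp hs0 hs1 _ (by linarith [D.lipX i u v t t'])).trans ?_
    rw [intervalIntegral.integral_const_mul]
    have h4 := (D.cov_le i u v (ce i) (pe i)).trans (mul_le_mul_of_nonneg_left
      (integral_env S.m1 (S.l1 i) (S.lL i) hs S.M2 S.log _) (by norm_num))
    linarith
  have h2 : ∀ v, (Q1 m (l (a1 i)) fun u => ρ * Q1 m (l i) fun ξ =>
      envP cc s (mk3 i (X i u v ξ) u v)) ≤
      ρ * (9 / 2 * (14 * M)) * (3 * (14 * M)) * env (cc (a2 i)) s v := by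
    intro v
    have := pe (a2 i) v
    refine (Q1_mono (g := fun u => ρ * (9 / 2 * (14 * M)) * env (cc (a2 i)) s v *
      env (cc (a1 i)) s u) fun u => ?_).trans ?_
    · have := pe (a1 i) u
      simp only [envP_mk, mul_comm (env (cc i) s _), Q1_const_mul]
      calc ρ * (env (cc (a1 i)) s u * env (cc (a2 i)) s v *
            Q1 m (l i) (fun ξ => env (cc i) s (X i u v ξ)))
          ≤ ρ * (env (cc (a1 i)) s u * env (cc (a2 i)) s v * (9 / 2 * (14 * M))) := by
            gcongr; exact h1 u v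
        _ = _ := by ring
    · rw [Q1_const_mul]
      calc _ ≤ ρ * (9 / 2 * (14 * M)) * env (cc (a2 i)) s v * (3 * (14 * M)) := by
            gcongr; exact Q1_env S hs hs1 _ _
        _ = _ := by ring
  refine (Q1_mono h2).trans ?_
  rw [Q1_const_mul]
  calc _ ≤ ρ * (9 / 2 * (14 * M)) * (3 * (14 * M)) * (3 * (14 * M)) := by
        gcongr; exact Q1_env S hs hs1 _ _
    _ = 81 / 2 * ρ * (14 * M) ^ 3 := by ring
    _ ≤ _ := by gcongr; norm_num

end

end Vale.Agent.P370Z.DISC
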