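import Vale.Agent.P363.MathlibUsed

/-! Functions of one variable with four controlled derivatives; the `(3,2,3)` quadrature rule and
fourth differences. -/

namespace Vale.Agent.P370Z.DISC

open MeasureTheory Set

noncomputable section

/-- `g` has four derivatives at the points of `s`, the `i`-th one bounded by `A * B ^ i`. -/
def Sm (g : ℝ → ℝ) (s : Set ℝ) (A B : ℝ) : Prop :=
  ∃ g1 g2 g3 g4 : ℝ → ℝ, ∀ t ∈ s, HasDerivAt g (g1 t) t ∧ HasDerivAt g1 (g2 t) t ∧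
    HasDerivAt g2 (g3 t) t ∧ HasDerivAt g3 (g4 t) t ∧
    |g t| ≤ A ∧ |g1 t| ≤ A * B ∧ |g2 t| ≤ A * B ^ 2 ∧ |g3 t| ≤ A * B ^ 3 ∧ |g4 t| ≤ A * B ^ 4

variable {f g : ℝ → ℝ} {s s' : Set ℝ} {A B A' B' : ℝ}

theorem Sm.mono_set (h : Sm g s A B) (hs : s' ⊆ s) : Sm g s' A B := by
  obtain ⟨g1, g2, g3, g4, h⟩ := h
  exact ⟨g1, g2, g3, g4, fun t ht => h t (hs ht)⟩

theorem Sm.mono (h : Sm g s A B) (hA : A ≤ A') (hB0 : 0 ≤ B) (hB : B ≤ B') : Sm g s A' B' := by
  obtain ⟨g1, g2, g3, g4, h⟩ := h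
  refine ⟨g1, g2, g3, g4, fun t ht => ?_⟩
  obtain ⟨d1, d2, d3, d4, b0, b1, b2, b3, b4⟩ := h t ht
  have hA0 : 0 ≤ A := (abs_nonneg _).trans b0
  have hA1 : 0 ≤ A' := hA0.trans hA
  refine ⟨d1, d2, d3, d4, b0.trans hA, b1.trans ?_, b2.trans ?_, b3.trans ?_, b4.trans ?_⟩ <;>
    gcongr

theorem Sm.bound (h : Sm g s A B) {t : ℝ} (ht : t ∈ s) : |g t| ≤ A := by
  obtain ⟨g1, g2, g3, g4, h⟩ := h
  exact (h t ht).2.2.2.2.1

theorem Sm.continuousAt (h : Sm g s A B) {t : ℝ} (ht : t ∈ s) : ContinuousAt g t := by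
  obtain ⟨g1, g2, g3, g4, h⟩ := h
  exact (h t ht).1.continuousAt

theorem Sm.const (c : ℝ) (s : Set ℝ) {B : ℝ} (hB : 0 ≤ B) : Sm (fun _ => c) s |c| B := by
  refine ⟨fun _ => 0, fun _ => 0, fun _ => 0, fun _ => 0, fun t _ => ?_⟩
  refine ⟨hasDerivAt_const _ _, hasDerivAt_const _ _, hasDerivAt_const _ _, hasDerivAt_const _ _,
    le_rfl, ?_, ?_, ?_, ?_⟩ <;> rw [abs_zero] <;> positivity

theorem Sm.add (hf : Sm f s A B) (hg : Sm g s A' B) : Sm (fun t => f t + g t) s (A + A') B := by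
  obtain ⟨f1, f2, f3, f4, hf⟩ := hf
  obtain ⟨g1, g2, g3, g4, hg⟩ := hg
  refine ⟨fun t => f1 t + g1 t, fun t => f2 t + g2 t, fun t => f3 t + g3 t, fun t => f4 t + g4 t,
    fun t ht => ?_⟩
  obtain ⟨d1, d2, d3, d4, b0, b1, b2, b3, b4⟩ := hf t ht
  obtain ⟨e1, e2, e3, e4, c0, c1, c2, c3, c4⟩ := hg t ht
  refine ⟨d1.add e1, d2.add e2, d3.add e3, d4.add e4, ?_, ?_, ?_, ?_, ?_⟩ <;>
    refine (abs_add_le _ _).trans ?_ <;> linarith

theorem abs_mul_le' {a b c d : ℝ} (h1 : |a| ≤ c) (h2 : |b| ≤ d) : |a * b| ≤ c * d := by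
  rw [abs_mul]
  exact mul_le_mul h1 h2 (abs_nonneg _) ((abs_nonneg _).trans h1)

theorem Sm.mul (hf : Sm f s A B) (hg : Sm g s A' B') :
    Sm (fun t => f t * g t) s (A * A') (B + B') := by
  obtain ⟨f1, f2, f3, f4, hf⟩ := hf
  obtain ⟨g1, g2, g3, g4, hg⟩ := hg
  refine ⟨fun t => f1 t * g t + f t * g1 t,
    fun t => f2 t * g t + 2 * (f1 t * g1 t) + f t * g2 t,
    fun t => f3 t * g t + 3 * (f2 t * g1 t) + 3 * (f1 t * g2 t) + f t * g3 t,
    fun t => f4 t * g t + 4 * (f3 t * g1 t) + 6 * (f2 t * g2 t) + 4 * (f1 t * g3 t) + f t * g4 t,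
    fun t ht => ?_⟩
  obtain ⟨d1, d2, d3, d4, b0, b1, b2, b3, b4⟩ := hf t ht
  obtain ⟨e1, e2, e3, e4, c0, c1, c2, c3, c4⟩ := hg t ht
  refine ⟨d1.mul e1, ?_, ?_, ?_, abs_mul_le' b0 c0, ?_, ?_, ?_, ?_⟩
  · refine HasDerivAt.congr_deriv ((d2.mul e1).add (d1.mul e2)) ?_
    ring
  · refine HasDerivAt.congr_deriv (((d3.mul e1).add ((d2.mul e2).const_mul 2)).add (d1.mul e3)) ?_
    ring
  · refine HasDerivAt.congr_deriv ((((d4.mul e1).add ((d3.mul e2).const_mul 3)).add ((d2.mul e3).const_mul 3)).add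
      (d1.mul e4)) ?_
    ring
  · have h1 := abs_le.1 (abs_mul_le' b1 c0)
    have h2 := abs_le.1 (abs_mul_le' b0 c1)
    rw [abs_le]; constructor <;> nlinarith [h1.1, h1.2, h2.1, h2.2]
  · have h1 := abs_le.1 (abs_mul_le' b2 c0)
    have h2 := abs_le.1 (abs_mul_le' b1 c1)
    have h3 := abs_le.1 (abs_mul_le' b0 c2)
    have e : A * A' * (B + B') ^ 2 = A * B ^ 2 * A' + 2 * (A * B * (A' * B')) + A * (A' * B' ^ 2) := by
      ring
    rw [abs_le, e]; constructor <;> linarith [h1.1, h1.2, h2.1, h2.2, h3.1, h3.2]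
  · have h1 := abs_le.1 (abs_mul_le' b3 c0)
    have h2 := abs_le.1 (abs_mul_le' b2 c1)
    have h3 := abs_le.1 (abs_mul_le' b1 c2)
    have h4 := abs_le.1 (abs_mul_le' b0 c3)
    have e : A * A' * (B + B') ^ 3 = A * B ^ 3 * A' + 3 * (A * B ^ 2 * (A' * B')) +
        3 * (A * B * (A' * B' ^ 2)) + A * (A' * B' ^ 3) := by ring
    rw [abs_le, e]; constructor <;> linarith [h1.1, h1.2, h2.1, h2.2, h3.1, h3.2, h4.1, h4.2]
  · have h1 := abs_le.1 (abs_mul_le' b4 c0)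
    have h2 := abs_le.1 (abs_mul_le' b3 c1)
    have h3 := abs_le.1 (abs_mul_le' b2 c2)
    have h4 := abs_le.1 (abs_mul_le' b1 c3)
    have h5 := abs_le.1 (abs_mul_le' b0 c4)
    have e : A * A' * (B + B') ^ 4 = A * B ^ 4 * A' + 4 * (A * B ^ 3 * (A' * B')) +
        6 * (A * B ^ 2 * (A' * B' ^ 2)) + 4 * (A * B * (A' * B' ^ 3)) + A * (A' * B' ^ 4) := by
      ring
    rw [abs_le, e]
    constructor <;> linarith [h1.1, h1.2, h2.1, h2.2, h3.1, h3.2, h4.1, h4.2, h5.1, h5.2]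

theorem Sm.const_mul (hg : Sm g s A B) (c : ℝ) : Sm (fun t => c * g t) s (|c| * A) B := by
  have := (Sm.const c s le_rfl).mul hg
  rwa [zero_add] at this

theorem Sm.neg (hg : Sm g s A B) : Sm (fun t => - g t) s A B := by
  have := hg.const_mul (-1)
  simpa using this

theorem Sm.sub (hf : Sm f s A B) (hg : Sm g s A' B) : Sm (fun t => f t - g t) s (A + A') B := by
  have := hf.add hg.neg
  simpa only [sub_eq_add_neg] using this

theorem Sm.sum {ι : Type*} (u : Finset ι) {g : ι → ℝ → ℝ} {A : ι → ℝ} (hB : 0 ≤ B)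
    (h : ∀ i ∈ u, Sm (g i) s (A i) B) : Sm (fun t => ∑ i ∈ u, g i t) s (∑ i ∈ u, A i) B := by
  classical
  induction u using Finset.induction_on with
  | empty => simpa using Sm.const 0 s hB
  | insert a u ha ih =>
    simp only [Finset.sum_insert ha]
    exact (h a (Finset.mem_insert_self _ _)).add
      (ih fun i hi => h i (Finset.mem_insert_of_mem hi))

/-- affine change of the variable -/
theorem Sm.comp_affine (hg : Sm g s A B) (c d : ℝ) :
    Sm (fun t => g (c * t + d)) {t | c * t + d ∈ s} A (|c| * B) := by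
  obtain ⟨g1, g2, g3, g4, hg⟩ := hg
  refine ⟨fun t => c * g1 (c * t + d), fun t => c ^ 2 * g2 (c * t + d),
    fun t => c ^ 3 * g3 (c * t + d), fun t => c ^ 4 * g4 (c * t + d), fun t ht => ?_⟩
  obtain ⟨e1, e2, e3, e4, c0, c1, c2, c3, c4⟩ := hg _ ht
  have ha : HasDerivAt (fun t : ℝ => c * t + d) c t := by
    simpa using ((hasDerivAt_id t).const_mul c).add_const d
  refine ⟨?_, ?_, ?_, ?_, c0, ?_, ?_, ?_, ?_⟩
  · refine HasDerivAt.congr_deriv (e1.comp t ha) ?_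
    ring
  · refine HasDerivAt.congr_deriv ((e2.comp t ha).const_mul c) ?_
    ring
  · refine HasDerivAt.congr_deriv ((e3.comp t ha).const_mul (c ^ 2)) ?_
    ring
  · refine HasDerivAt.congr_deriv ((e4.comp t ha).const_mul (c ^ 3)) ?_
    ring
  · rw [abs_mul]
    calc |c| * |g1 (c * t + d)| ≤ |c| * (A * B) := by gcongr
      _ = _ := by ring
  · rw [abs_mul, abs_pow]
    calc |c| ^ 2 * |g2 (c * t + d)| ≤ |c| ^ 2 * (A * B ^ 2) := by gcongr
      _ = _ := by ring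
  · rw [abs_mul, abs_pow]
    calc |c| ^ 3 * |g3 (c * t + d)| ≤ |c| ^ 3 * (A * B ^ 3) := by gcongr
      _ = _ := by ring
  · rw [abs_mul, abs_pow]
    calc |c| ^ 4 * |g4 (c * t + d)| ≤ |c| ^ 4 * (A * B ^ 4) := by gcongr
      _ = _ := by ring

theorem Sm.comp_add (hg : Sm g s A B) (d : ℝ) :
    Sm (fun t => g (t + d)) {t | t + d ∈ s} A B := by
  simpa using hg.comp_affine 1 d

/-- a function that coincides near the points of `s` -/
theorem Sm.congr_nhds (hg : Sm g s A B) (h : ∀ t ∈ s, f =ᶠ[nhds t] g) : Sm f s A B := by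
  obtain ⟨g1, g2, g3, g4, hg⟩ := hg
  refine ⟨g1, g2, g3, g4, fun t ht => ?_⟩
  obtain ⟨e1, e2, e3, e4, c0, c1, c2, c3, c4⟩ := hg _ ht
  exact ⟨e1.congr_of_eventuallyEq (h t ht), e2, e3, e4, by rwa [(h t ht).self_of_nhds],
    c1, c2, c3, c4⟩

theorem Sm.of_contDiff (hg : ContDiff ℝ 4 g)
    (hb : ∀ i ≤ 4, ∀ t ∈ s, |iteratedDeriv i g t| ≤ A * B ^ i) : Sm g s A B := by
  have hd : ∀ i < 4, ∀ t, HasDerivAt (iteratedDeriv i g) (iteratedDeriv (i + 1) g t) t := by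
    intro i hi t
    rw [iteratedDeriv_succ]
    exact (hg.differentiable_iteratedDeriv i (by exact_mod_cast hi) t).hasDerivAt
  refine ⟨iteratedDeriv 1 g, iteratedDeriv 2 g, iteratedDeriv 3 g, iteratedDeriv 4 g,
    fun t ht => ⟨?_, hd 1 (by norm_num) t, hd 2 (by norm_num) t, hd 3 (by norm_num) t, ?_, ?_,
      hb 2 (by norm_num) t ht, hb 3 (by norm_num) t ht, hb 4 (by norm_num) t ht⟩⟩
  · simpa using hd 0 (by norm_num) t
  · simpa using hb 0 (by norm_num) t ht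
  · simpa using hb 1 (by norm_num) t ht

/-- mean value inequality in the form used below -/
theorem mvt_bound {f f' : ℝ → ℝ} {a b M : ℝ} (hd : ∀ t ∈ Icc a b, HasDerivAt f (f' t) t)
    (hM : ∀ t ∈ Icc a b, |f' t| ≤ M) {t u : ℝ} (ht : t ∈ Icc a b) (hu : u ∈ Icc a b) :
    |f t - f u| ≤ M * |t - u| := by
  have := (convex_Icc a b).norm_image_sub_le_of_norm_hasDerivWithin_le (f := f) (f' := f')
    (fun x hx => (hd x hx).hasDerivWithinAt) (fun x hx => by simpa using hM x hx) hu ht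
  simpa using this

/-- cubic Taylor polynomial with a crude remainder -/
theorem Sm.taylor {a H : ℝ} (hH : 0 ≤ H) (hg : Sm g (Icc a (a + H)) A B) :
    ∃ c0 c1 c2 c3 : ℝ, ∀ t ∈ Icc a (a + H),
      |g t - (c0 + c1 * (t - a) + c2 * (t - a) ^ 2 + c3 * (t - a) ^ 3)| ≤ A * B ^ 4 * H ^ 4 := by
  obtain ⟨g1, g2, g3, g4, hg⟩ := hg
  have ha : a ∈ Icc a (a + H) := ⟨le_rfl, by linarith⟩
  have hM : 0 ≤ A * B ^ 4 := (abs_nonneg _).trans (hg a ha).2.2.2.2.2.2.2.2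
  have hlen : ∀ t ∈ Icc a (a + H), |t - a| ≤ H := fun t ht => by
    rw [abs_of_nonneg (by linarith [ht.1])]; linarith [ht.2]
  have hid : ∀ t : ℝ, HasDerivAt (fun t : ℝ => t - a) 1 t := fun t => (hasDerivAt_id t).sub_const a
  have r3 : ∀ t ∈ Icc a (a + H), |g3 t - g3 a| ≤ A * B ^ 4 * H := fun t ht =>
    (mvt_bound (fun t ht => (hg t ht).2.2.2.1) (fun t ht => (hg t ht).2.2.2.2.2.2.2.2) ht ha).trans
      (by gcongr; exact hlen t ht)
  have r2 : ∀ t ∈ Icc a (a + H), |g2 t - (g2 a + g3 a * (t - a))| ≤ A * B ^ 4 * H ^ 2 := by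
    intro t ht
    have := mvt_bound (f := fun t => g2 t - (g2 a + g3 a * (t - a))) (f' := fun t => g3 t - g3 a)
      (fun t ht => by
        refine HasDerivAt.congr_deriv ((hg t ht).2.2.1.sub (((hid t).const_mul (g3 a)).const_add (g2 a))) ?_
        ring) r3 ht ha
    simp only [sub_self, mul_zero, add_zero, sub_zero] at this
    calc _ ≤ A * B ^ 4 * H * |t - a| := this
      _ ≤ A * B ^ 4 * H * H := by gcongr; exact hlen t ht
      _ = _ := by ring
  have r1 : ∀ t ∈ Icc a (a + H),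
      |g1 t - (g1 a + g2 a * (t - a) + g3 a / 2 * (t - a) ^ 2)| ≤ A * B ^ 4 * H ^ 3 := by
    intro t ht
    have := mvt_bound (f := fun t => g1 t - (g1 a + g2 a * (t - a) + g3 a / 2 * (t - a) ^ 2))
      (f' := fun t => g2 t - (g2 a + g3 a * (t - a)))
      (fun t ht => by
        refine HasDerivAt.congr_deriv ((hg t ht).2.1.sub ((((hid t).const_mul (g2 a)).const_add (g1 a)).add
          (((hid t).pow 2).const_mul (g3 a / 2)))) ?_
        simp only [Nat.cast_ofNat, Nat.add_one_sub_one, pow_one]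
        ring) r2 ht ha
    simp only [sub_self, mul_zero, add_zero, sub_zero, ne_eq, OfNat.ofNat_ne_zero,
      not_false_eq_true, zero_pow] at this
    calc _ ≤ A * B ^ 4 * H ^ 2 * |t - a| := this
      _ ≤ A * B ^ 4 * H ^ 2 * H := by gcongr; exact hlen t ht
      _ = _ := by ring
  refine ⟨g a, g1 a, g2 a / 2, g3 a / 6, fun t ht => ?_⟩
  have := mvt_bound
    (f := fun t => g t - (g a + g1 a * (t - a) + g2 a / 2 * (t - a) ^ 2 + g3 a / 6 * (t - a) ^ 3))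
    (f' := fun t => g1 t - (g1 a + g2 a * (t - a) + g3 a / 2 * (t - a) ^ 2))
    (fun t ht => by
      refine HasDerivAt.congr_deriv ((hg t ht).1.sub (((((hid t).const_mul (g1 a)).const_add (g a)).add
        (((hid t).pow 2).const_mul (g2 a / 2))).add (((hid t).pow 3).const_mul (g3 a / 6)))) ?_
      simp only [Nat.cast_ofNat, Nat.add_one_sub_one, pow_one]
      ring) r1 ht ha
  simp only [sub_self, mul_zero, add_zero, sub_zero, ne_eq, OfNat.ofNat_ne_zero,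
    not_false_eq_true, zero_pow] at this
  calc _ ≤ A * B ^ 4 * H ^ 3 * |t - a| := this
    _ ≤ A * B ^ 4 * H ^ 3 * H := by gcongr; exact hlen t ht
    _ = _ := by ring

/-- the `(3,2,3)` rule on `[a, a + H]` -/
def q1 (g : ℝ → ℝ) (a H : ℝ) : ℝ :=
  H / 8 * (3 * g (a + H / 6) + 2 * g (a + H / 2) + 3 * g (a + 5 * H / 6))

theorem Sm.quad {a H : ℝ} (hH : 0 ≤ H) (hg : Sm g (Icc a (a + H)) A B) :
    |q1 g a H - ∫ t in a..(a + H), g t| ≤ 2 * (A * B ^ 4) * H ^ 5 := by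
  obtain ⟨c0, c1, c2, c3, hc⟩ := hg.taylor hH
  set p : ℝ → ℝ := fun t => c0 + c1 * (t - a) + c2 * (t - a) ^ 2 + c3 * (t - a) ^ 3 with hp
  have hpc : Continuous p := by rw [hp]; fun_prop
  have hgc : ContinuousOn g (uIcc a (a + H)) := by
    rw [uIcc_of_le (by linarith)]
    exact fun t ht => (hg.continuousAt ht).continuousWithinAt
  have hP : ∀ t : ℝ, HasDerivAt (fun t : ℝ => c0 * (t - a) + c1 / 2 * (t - a) ^ 2 +
      c2 / 3 * (t - a) ^ 3 + c3 / 4 * (t - a) ^ 4) (p t) t := by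
    intro t
    have hid : HasDerivAt (fun t : ℝ => t - a) 1 t := (hasDerivAt_id t).sub_const a
    refine HasDerivAt.congr_deriv ((((hid.const_mul c0).add ((hid.pow 2).const_mul (c1 / 2))).add
      ((hid.pow 3).const_mul (c2 / 3))).add ((hid.pow 4).const_mul (c3 / 4))) ?_
    simp only [hp, Nat.cast_ofNat, Nat.add_one_sub_one, pow_one]
    ring
  have hIp : ∫ t in a..(a + H), p t = q1 p a H := by
    rw [intervalIntegral.integral_eq_sub_of_hasDerivAt (fun t _ => hP t)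
      (hpc.intervalIntegrable _ _)]
    simp only [q1, hp]
    ring
  have h1 : |∫ t in a..(a + H), (g t - p t)| ≤ A * B ^ 4 * H ^ 4 * |a + H - a| := by
    have := intervalIntegral.norm_integral_le_of_norm_le_const (a := a) (b := a + H)
      (f := fun t => g t - p t) (C := A * B ^ 4 * H ^ 4) (fun t ht => by
        rw [uIoc_of_le (by linarith)] at ht
        exact hc t ⟨ht.1.le, ht.2⟩)
    simpa using this
  rw [intervalIntegral.integral_sub hgc.intervalIntegrable (hpc.intervalIntegrable _ _), hIp,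
    add_sub_cancel_left, abs_of_nonneg hH] at h1
  have m1 := abs_le.1 (hc (a + H / 6) ⟨by linarith, by linarith⟩)
  have m2 := abs_le.1 (hc (a + H / 2) ⟨by linarith, by linarith⟩)
  have m3 := abs_le.1 (hc (a + 5 * H / 6) ⟨by linarith, by linarith⟩)
  have h2 : |q1 g a H - q1 p a H| ≤ A * B ^ 4 * H ^ 4 * H := by
    have e : q1 g a H - q1 p a H = H / 8 * (3 * (g (a + H / 6) - p (a + H / 6)) +
        2 * (g (a + H / 2) - p (a + H / 2)) + 3 * (g (a + 5 * H / 6) - p (a + 5 * H / 6))) := by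
      simp only [q1]; ring
    rw [e, abs_mul, abs_of_nonneg (by positivity : 0 ≤ H / 8)]
    have : |3 * (g (a + H / 6) - p (a + H / 6)) + 2 * (g (a + H / 2) - p (a + H / 2)) +
        3 * (g (a + 5 * H / 6) - p (a + 5 * H / 6))| ≤ 8 * (A * B ^ 4 * H ^ 4) := by
      rw [abs_le]
      constructor <;> simp only [hp] <;> linarith [m1.1, m1.2, m2.1, m2.2, m3.1, m3.2]
    calc _ ≤ H / 8 * (8 * (A * B ^ 4 * H ^ 4)) := by gcongr
      _ = _ := by ring
  calc _ = |(q1 g a H - q1 p a H) - ((∫ t in a..(a + H), g t) - q1 p a H)| := by ring_nf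
    _ ≤ |q1 g a H - q1 p a H| + |(∫ t in a..(a + H), g t) - q1 p a H| := abs_sub _ _
    _ ≤ A * B ^ 4 * H ^ 4 * H + A * B ^ 4 * H ^ 4 * H := add_le_add h2 h1
    _ = _ := by ring

/-- fourth difference with step `h` -/
def d4 (g : ℝ → ℝ) (a h : ℝ) : ℝ :=
  g a - 4 * g (a + h) + 6 * g (a + 2 * h) - 4 * g (a + 3 * h) + g (a + 4 * h)

theorem Sm.d4_le {a h : ℝ} (hh : 0 ≤ h) (hg : Sm g (Icc a (a + 4 * h)) A B) :
    |d4 g a h| ≤ 4096 * (A * B ^ 4) * h ^ 4 := by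
  obtain ⟨c0, c1, c2, c3, hc⟩ := hg.taylor (by positivity)
  have m0 := abs_le.1 (hc a ⟨by linarith, by linarith⟩)
  have m1 := abs_le.1 (hc (a + h) ⟨by linarith, by linarith⟩)
  have m2 := abs_le.1 (hc (a + 2 * h) ⟨by linarith, by linarith⟩)
  have m3 := abs_le.1 (hc (a + 3 * h) ⟨by linarith, by linarith⟩)
  have m4 := abs_le.1 (hc (a + 4 * h) ⟨by linarith, by linarith⟩)
  have e : 4096 * (A * B ^ 4) * h ^ 4 = 16 * (A * B ^ 4 * (4 * h) ^ 4) := by ring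
  have e0 : c0 + c1 * (a - a) + c2 * (a - a) ^ 2 + c3 * (a - a) ^ 3
      - 4 * (c0 + c1 * (a + h - a) + c2 * (a + h - a) ^ 2 + c3 * (a + h - a) ^ 3)
      + 6 * (c0 + c1 * (a + 2 * h - a) + c2 * (a + 2 * h - a) ^ 2 + c3 * (a + 2 * h - a) ^ 3)
      - 4 * (c0 + c1 * (a + 3 * h - a) + c2 * (a + 3 * h - a) ^ 2 + c3 * (a + 3 * h - a) ^ 3)
      + (c0 + c1 * (a + 4 * h - a) + c2 * (a + 4 * h - a) ^ 2 + c3 * (a + 4 * h - a) ^ 3) = 0 := by
    ring
  rw [e, abs_le, d4]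
  constructor <;> linarith [m0.1, m0.2, m1.1, m1.2, m2.1, m2.2, m3.1, m3.2, m4.1, m4.2]

end

end Vale.Agent.P370Z.DISC
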