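import Vale.Agent.P370Z.Basic
import Vale.Agent.P370Z.DISC.Sm

/-! One-dimensional facts: composite rule, adapted rule, envelopes, the regularised kernel. -/

namespace Vale.Agent.P370Z.DISC

open MeasureTheory Set

noncomputable section

/-! ### The composite rule -/

/-- the composite `(3,2,3)` rule on `[-l, l]` with cells of length `1 / m` -/
def Q1 (m l : ℕ) (g : ℝ → ℝ) : ℝ :=
  ∑ n ∈ Finset.range (6 * m * l), (wt n : ℝ) / (8 * m) * g (xi m l n)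

theorem sum_range_three (f : ℕ → ℝ) (N : ℕ) :
    ∑ n ∈ Finset.range (3 * N), f n =
      ∑ j ∈ Finset.range N, (f (3 * j) + f (3 * j + 1) + f (3 * j + 2)) := by
  induction N with
  | zero => simp
  | succ N ih =>
    rw [show 3 * (N + 1) = 3 * N + 1 + 1 + 1 by ring, Finset.sum_range_succ, Finset.sum_range_succ,
      Finset.sum_range_succ, ih, Finset.sum_range_succ]
    ring

/-- left end of the cell number `j` -/
def cl (m l j : ℕ) : ℝ := -(l : ℝ) + (j : ℝ) / m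

theorem cl_succ {m : ℕ} (l j : ℕ) : cl m l (j + 1) = cl m l j + 1 / m := by
  simp only [cl]; push_cast; ring

theorem cl_zero (m l : ℕ) : cl m l 0 = -(l : ℝ) := by simp [cl]

theorem cl_last {m : ℕ} (hm : 1 ≤ m) (l : ℕ) : cl m l (2 * m * l) = l := by
  have : (m : ℝ) ≠ 0 := by positivity
  simp only [cl]; push_cast; field_simp; ring

theorem Q1_eq {m : ℕ} (hm : 1 ≤ m) (l : ℕ) (g : ℝ → ℝ) :
    Q1 m l g = ∑ j ∈ Finset.range (2 * m * l), q1 g (cl m l j) (1 / m) := by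
  have hm' : (m : ℝ) ≠ 0 := by positivity
  rw [Q1, show 6 * m * l = 3 * (2 * m * l) by ring, sum_range_three]
  refine Finset.sum_congr rfl fun j _ => ?_
  have w0 : wt (3 * j) = 3 := by simp [wt]
  have w1 : wt (3 * j + 1) = 2 := by simp [wt, Nat.add_mod]
  have w2 : wt (3 * j + 2) = 3 := by simp [wt, Nat.add_mod]
  have x0 : (xi m l (3 * j) : ℝ) = cl m l j + 1 / m / 6 := by
    simp only [xi, cl]; push_cast; field_simp; ring
  have x1 : (xi m l (3 * j + 1) : ℝ) = cl m l j + 1 / m / 2 := by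
    simp only [xi, cl]; push_cast; field_simp; ring
  have x2 : (xi m l (3 * j + 2) : ℝ) = cl m l j + 5 * (1 / m) / 6 := by
    simp only [xi, cl]; push_cast; field_simp; ring
  rw [w0, w1, w2, x0, x1, x2, q1]
  push_cast
  field_simp

theorem integral_cells {m : ℕ} (hm : 1 ≤ m) (l : ℕ) {g : ℝ → ℝ} (hg : Continuous g) :
    ∫ t in (-(l : ℝ))..l, g t =
      ∑ j ∈ Finset.range (2 * m * l), ∫ t in (cl m l j)..(cl m l j + 1 / m), g t := by
  have := intervalIntegral.sum_integral_adjacent_intervals (f := g) (μ := volume)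
    (a := cl m l) (n := 2 * m * l) (fun k _ => hg.intervalIntegrable _ _)
  rw [cl_zero, cl_last hm] at this
  rw [← this]
  simp only [cl_succ]

theorem le_cell_integral {a H c : ℝ} (hH : 0 ≤ H) {E : ℝ → ℝ} (hE : Continuous E)
    (h : ∀ t ∈ Icc a (a + H), c ≤ E t) : H * c ≤ ∫ t in a..(a + H), E t := by
  have := intervalIntegral.integral_mono_on (μ := volume) (by linarith : a ≤ a + H)
    (intervalIntegrable_const (c := c)) (hE.intervalIntegrable _ _) h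
  simpa using this

/-- error of the composite rule -/
theorem Q1_err {m : ℕ} (hm : 1 ≤ m) (l : ℕ) {g E : ℝ → ℝ} (hg : Continuous g) (hE : Continuous E)
    (h : ∀ t : ℝ, ∃ A B : ℝ, Sm g (Icc (t - 1 / m) (t + 1 / m)) A B ∧ A * B ^ 4 ≤ E t) :
    |Q1 m l g - ∫ t in (-(l : ℝ))..l, g t| ≤
      2 / (m : ℝ) ^ 4 * ∫ t in (-(l : ℝ))..l, E t := by
  have hm' : (0 : ℝ) < m := by positivity
  have hH : (0 : ℝ) < 1 / m := by positivity
  rw [Q1_eq hm, integral_cells hm l hg, integral_cells hm l hE, ← Finset.sum_sub_distrib,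
    Finset.mul_sum]
  refine (Finset.abs_sum_le_sum_abs _ _).trans (Finset.sum_le_sum fun j _ => ?_)
  set e := |q1 g (cl m l j) (1 / m) - ∫ t in (cl m l j)..(cl m l j + 1 / m), g t| with he
  have key : ∀ t ∈ Icc (cl m l j) (cl m l j + 1 / m), e * m ^ 5 / 2 ≤ E t := by
    intro t ht
    obtain ⟨A, B, hS, hA⟩ := h t
    have h1 := (hS.mono_set (s' := Icc (cl m l j) (cl m l j + 1 / m))
      (Icc_subset_Icc (by linarith [ht.2]) (by linarith [ht.1]))).quad hH.le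
    rw [← he] at h1
    have h2 : e * m ^ 5 ≤ 2 * (A * B ^ 4) * (1 / m) ^ 5 * m ^ 5 := by gcongr
    have h3 : 2 * (A * B ^ 4) * (1 / (m : ℝ)) ^ 5 * m ^ 5 = 2 * (A * B ^ 4) := by field_simp
    linarith
  have h4 := le_cell_integral hH.le hE key
  calc e = 2 / (m : ℝ) ^ 4 * (1 / m * (e * m ^ 5 / 2)) := by field_simp
    _ ≤ _ := by gcongr

/-- the rule applied to a slowly varying nonnegative function -/
theorem Q1_le {m : ℕ} (hm : 1 ≤ m) (l : ℕ) {g E : ℝ → ℝ} (hE : Continuous E)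
    (h : ∀ t t' : ℝ, |t - t'| ≤ 1 / m → g t ≤ E t') :
    Q1 m l g ≤ ∫ t in (-(l : ℝ))..l, E t := by
  have hm' : (0 : ℝ) < m := by positivity
  have hH : (0 : ℝ) < 1 / m := by positivity
  rw [Q1_eq hm, integral_cells hm l hE]
  refine Finset.sum_le_sum fun j _ => ?_
  have key : ∀ t ∈ Icc (cl m l j) (cl m l j + 1 / m), q1 g (cl m l j) (1 / m) * m ≤ E t := by
    intro t ht
    have h1 := h (cl m l j + 1 / m / 6) t (by rw [abs_le]; constructor <;> linarith [ht.1, ht.2])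
    have h2 := h (cl m l j + 1 / m / 2) t (by rw [abs_le]; constructor <;> linarith [ht.1, ht.2])
    have h3 := h (cl m l j + 5 * (1 / m) / 6) t
      (by rw [abs_le]; constructor <;> linarith [ht.1, ht.2])
    have e : q1 g (cl m l j) (1 / m) * m = (3 * g (cl m l j + 1 / m / 6) +
        2 * g (cl m l j + 1 / m / 2) + 3 * g (cl m l j + 5 * (1 / m) / 6)) / 8 := by
      rw [q1]; field_simp
    rw [e]; linarith
  have h4 := le_cell_integral hH.le hE key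
  calc _ = 1 / (m : ℝ) * (q1 g (cl m l j) (1 / m) * m) := by field_simp
    _ ≤ _ := h4

theorem Q1_mono {m l : ℕ} {f g : ℝ → ℝ} (h : ∀ t, f t ≤ g t) : Q1 m l f ≤ Q1 m l g :=
  Finset.sum_le_sum fun n _ => mul_le_mul_of_nonneg_left (h _) (by positivity)

theorem Q1_const_mul (m l : ℕ) (c : ℝ) (g : ℝ → ℝ) :
    Q1 m l (fun t => c * g t) = c * Q1 m l g := by
  simp only [Q1, Finset.mul_sum]
  exact Finset.sum_congr rfl fun n _ => by ring

theorem Q1_sub (m l : ℕ) (f g : ℝ → ℝ) :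
    Q1 m l (fun t => f t - g t) = Q1 m l f - Q1 m l g := by
  simp only [Q1, ← Finset.sum_sub_distrib]
  exact Finset.sum_congr rfl fun n _ => by ring

theorem abs_Q1_le {m l : ℕ} {f g : ℝ → ℝ} (h : ∀ t, |f t| ≤ g t) : |Q1 m l f| ≤ Q1 m l g := by
  refine (Finset.abs_sum_le_sum_abs _ _).trans (Finset.sum_le_sum fun n _ => ?_)
  rw [abs_mul, abs_of_nonneg (by positivity)]
  exact mul_le_mul_of_nonneg_left (h _) (by positivity)

theorem Q1_nonneg {m l : ℕ} {g : ℝ → ℝ} (h : ∀ t, 0 ≤ g t) : 0 ≤ Q1 m l g :=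
  Finset.sum_nonneg fun n _ => mul_nonneg (by positivity) (h _)

theorem integral_Q1 {m l : ℕ} {G : ℝ → ℝ → ℝ} (hG : ∀ u, Continuous fun t => G t u) (a b : ℝ) :
    ∫ t in a..b, Q1 m l (G t) = Q1 m l (fun u => ∫ t in a..b, G t u) := by
  simp only [Q1]
  rw [intervalIntegral.integral_finsetSum
    (fun n _ => ((hG _).intervalIntegrable _ _).const_mul _)]
  simp only [intervalIntegral.integral_const_mul]

theorem continuous_Q1 {X : Type*} [TopologicalSpace X] {m l : ℕ} {G : X → ℝ → ℝ}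
    (hG : ∀ u, Continuous fun t => G t u) : Continuous fun t => Q1 m l (G t) :=
  continuous_finsetSum _ fun _ _ => continuous_const.mul (hG _)

/-! ### The inverse of the displacement -/

theorem exists_inv {Λ a : ℝ → ℝ} (hd : ∀ t, HasDerivAt Λ (a t) t) (ha : ∀ t, 1 / 2 ≤ a t) :
    ∃ X : ℝ → ℝ, (∀ ξ, Λ (X ξ) = ξ) ∧ (∀ t, X (Λ t) = t) ∧
      (∀ ξ, HasDerivAt X (1 / a (X ξ)) ξ) ∧ ∀ t t', |t - t'| ≤ 2 * |Λ t - Λ t'| := by
  have hc : Continuous Λ := continuous_iff_continuousAt.2 fun t => (hd t).continuousAt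
  have hmono : Monotone fun t => Λ t - t / 2 := by
    refine monotone_of_deriv_nonneg (fun t => ((hd t).sub
      ((hasDerivAt_id t).div_const 2)).differentiableAt) fun t => ?_
    have : HasDerivAt (fun t => Λ t - t / 2) (a t - 1 / 2) t :=
      (hd t).sub ((hasDerivAt_id t).div_const 2)
    rw [this.deriv]; linarith [ha t]
  have hlip : ∀ t t', t ≤ t' → t' - t ≤ 2 * (Λ t' - Λ t) := fun t t' h => by
    have := hmono h
    simp only at this
    linarith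
  have hsm : StrictMono Λ := fun t t' h => by linarith [hlip t t' h.le]
  have hsurj : Function.Surjective Λ := by
    intro ξ
    have h1 : Λ (-(2 * |ξ - Λ 0|)) ≤ ξ := by
      have := hlip (-(2 * |ξ - Λ 0|)) 0 (by have := abs_nonneg (ξ - Λ 0); linarith)
      linarith [neg_abs_le (ξ - Λ 0)]
    have h2 : ξ ≤ Λ (2 * |ξ - Λ 0|) := by
      have := hlip 0 (2 * |ξ - Λ 0|) (by positivity)
      linarith [le_abs_self (ξ - Λ 0)]
    exact mem_range_of_exists_le_of_exists_ge hc ⟨_, h1⟩ ⟨_, h2⟩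
  let e := hsm.orderIsoOfSurjective Λ hsurj
  have he : ∀ t, e t = Λ t := fun t => rfl
  refine ⟨e.symm, fun ξ => by rw [← he, e.apply_symm_apply], fun t => by
    rw [← he, e.symm_apply_apply], fun ξ => ?_, fun t t' => ?_⟩
  · rw [one_div]
    refine HasDerivAt.of_local_left_inverse e.symm.continuous.continuousAt (hd _)
      (by linarith [ha (e.symm ξ)]) (Filter.Eventually.of_forall fun y => ?_)
    rw [← he, e.apply_symm_apply]
  · rcases le_total t t' with h | h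
    · have := hlip t t' h
      rw [abs_sub_comm, abs_of_nonneg (by linarith), abs_sub_comm, abs_of_nonneg (by linarith)]
      exact this
    · have := hlip t' t h
      rw [abs_of_nonneg (by linarith), abs_of_nonneg (by linarith)]
      exact this

set_option maxHeartbeats 1000000 in
/-- composition with the inverse of a map whose derivative `a` has three small derivatives -/
theorem Sm.comp_inv {g X a a1 a2 a3 : ℝ → ℝ} {S : Set ℝ} {A B θ : ℝ} (hg : Sm g S A B)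
    (hB : 0 ≤ B) (hθ : θ = 0 ∨ θ = 1) (hX : ∀ ξ, HasDerivAt X (1 / a (X ξ)) ξ)
    (ha : ∀ t, 1 / 2 ≤ a t) (d1 : ∀ t, HasDerivAt a (a1 t) t) (d2 : ∀ t, HasDerivAt a1 (a2 t) t)
    (d3 : ∀ t, HasDerivAt a2 (a3 t) t) (b1 : ∀ t ∈ S, |a1 t| ≤ θ / 2) (b2 : ∀ t ∈ S, |a2 t| ≤ θ / 2)
    (b3 : ∀ t ∈ S, |a3 t| ≤ θ / 2) :
    Sm (fun ξ => g (X ξ)) {ξ | X ξ ∈ S} A (2 * B + 12 * θ) := by
  obtain ⟨g1, g2, g3, g4, hg⟩ := hg
  have hθ0 : 0 ≤ θ := by rcases hθ with h | h <;> simp [h]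
  let k : ℝ → ℝ := fun t => 1 / a t
  let k1 : ℝ → ℝ := fun t => -(a1 t * k t ^ 2)
  let k2 : ℝ → ℝ := fun t => -(a2 t * k t ^ 2) + 2 * (a1 t ^ 2 * k t ^ 3)
  let k3 : ℝ → ℝ := fun t => -(a3 t * k t ^ 2) + 6 * (a1 t * a2 t * k t ^ 3) -
    6 * (a1 t ^ 3 * k t ^ 4)
  have ha0 : ∀ t, a t ≠ 0 := fun t => by linarith [ha t]
  have e1 : ∀ t, HasDerivAt k (k1 t) t := fun t => by
    refine HasDerivAt.congr_deriv ((hasDerivAt_const t (1 : ℝ)).div (d1 t) (ha0 t)) ?_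
    simp only [k1, k]
    field_simp [ha0 t]
    ring
  have e2 : ∀ t, HasDerivAt k1 (k2 t) t := fun t => by
    refine HasDerivAt.congr_deriv (((d2 t).mul ((e1 t).pow 2)).neg) ?_
    simp only [k2, k1, Pi.pow_apply, Nat.cast_ofNat, Nat.add_one_sub_one, pow_one]
    ring
  have e3 : ∀ t, HasDerivAt k2 (k3 t) t := fun t => by
    refine HasDerivAt.congr_deriv ((((d3 t).mul ((e1 t).pow 2)).neg).add
      ((((d2 t).pow 2).mul ((e1 t).pow 3)).const_mul 2)) ?_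
    simp only [k3, k1, Pi.pow_apply, Nat.cast_ofNat, Nat.add_one_sub_one, pow_one]
    ring
  have c0 : ∀ t, |k t| ≤ 2 := fun t => by
    have := ha t
    rw [abs_of_nonneg (by simp only [k]; positivity)]
    simp only [k]
    rw [div_le_iff₀ (by linarith)]; linarith
  refine ⟨fun ξ => k (X ξ) * g1 (X ξ),
    fun ξ => k (X ξ) * k1 (X ξ) * g1 (X ξ) + k (X ξ) ^ 2 * g2 (X ξ),
    fun ξ => (k (X ξ) * k1 (X ξ) ^ 2 + k (X ξ) ^ 2 * k2 (X ξ)) * g1 (X ξ) +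
      3 * (k (X ξ) ^ 2 * k1 (X ξ)) * g2 (X ξ) + k (X ξ) ^ 3 * g3 (X ξ),
    fun ξ => (k (X ξ) * k1 (X ξ) ^ 3 + 4 * (k (X ξ) ^ 2 * k1 (X ξ) * k2 (X ξ)) +
      k (X ξ) ^ 3 * k3 (X ξ)) * g1 (X ξ) +
      (7 * (k (X ξ) ^ 2 * k1 (X ξ) ^ 2) + 4 * (k (X ξ) ^ 3 * k2 (X ξ))) * g2 (X ξ) +
      6 * (k (X ξ) ^ 3 * k1 (X ξ)) * g3 (X ξ) + k (X ξ) ^ 4 * g4 (X ξ), fun ξ hξ => ?_⟩
  obtain ⟨f1, f2, f3, f4, m0, m1, m2, m3, m4⟩ := hg (X ξ) hξ
  have hXk : HasDerivAt X (k (X ξ)) ξ := hX ξ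
  have K0 := (e1 (X ξ)).comp ξ hXk
  have K1 := (e2 (X ξ)).comp ξ hXk
  have K2 := (e3 (X ξ)).comp ξ hXk
  have G0 := f1.comp ξ hXk
  have G1 := f2.comp ξ hXk
  have G2 := f3.comp ξ hXk
  have G3 := f4.comp ξ hXk
  have hA : 0 ≤ A := (abs_nonneg _).trans m0
  have n0 := c0 (X ξ)
  have p1 := b1 _ hξ
  have p2 := b2 _ hξ
  have p3 := b3 _ hξ
  have hθ2 : θ ^ 2 = θ := by rcases hθ with h | h <;> simp [h]
  have hθ3 : θ ^ 3 = θ := by rcases hθ with h | h <;> simp [h]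
  have n1 : |k1 (X ξ)| ≤ 2 * (3 * θ) := by
    simp only [k1, abs_neg, abs_mul, abs_pow]
    calc |a1 (X ξ)| * |k (X ξ)| ^ 2 ≤ θ / 2 * 2 ^ 2 := by gcongr
      _ ≤ _ := by linarith
  have n2 : |k2 (X ξ)| ≤ 2 * (3 * θ) ^ 2 := by
    simp only [k2]
    refine (abs_add_le _ _).trans ?_
    simp only [abs_neg, abs_mul, abs_pow, abs_two]
    calc |a2 (X ξ)| * |k (X ξ)| ^ 2 + 2 * (|a1 (X ξ)| ^ 2 * |k (X ξ)| ^ 3)
        ≤ θ / 2 * 2 ^ 2 + 2 * ((θ / 2) ^ 2 * 2 ^ 3) := by gcongr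
      _ ≤ _ := by nlinarith
  have n3 : |k3 (X ξ)| ≤ 2 * (3 * θ) ^ 3 := by
    simp only [k3]
    refine (abs_sub _ _).trans ?_
    refine (add_le_add_left (abs_add_le _ _) _).trans ?_
    have h6 : |(6 : ℝ)| = 6 := abs_of_nonneg (by norm_num)
    simp only [abs_neg, abs_mul, abs_pow, h6]
    calc |a3 (X ξ)| * |k (X ξ)| ^ 2 + 6 * (|a1 (X ξ)| * |a2 (X ξ)| * |k (X ξ)| ^ 3) +
          6 * (|a1 (X ξ)| ^ 3 * |k (X ξ)| ^ 4)
        ≤ θ / 2 * 2 ^ 2 + 6 * (θ / 2 * (θ / 2) * 2 ^ 3) + 6 * ((θ / 2) ^ 3 * 2 ^ 4) := by gcongr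
      _ ≤ _ := by nlinarith
  set β := 3 * θ with hβ
  have hβ0 : 0 ≤ β := by positivity
  have e12 : 12 * θ = 4 * β := by rw [hβ]; ring
  have h3 : |(3 : ℝ)| = 3 := abs_of_nonneg (by norm_num)
  have h4 : |(4 : ℝ)| = 4 := abs_of_nonneg (by norm_num)
  have h6 : |(6 : ℝ)| = 6 := abs_of_nonneg (by norm_num)
  have h7 : |(7 : ℝ)| = 7 := abs_of_nonneg (by norm_num)
  rw [e12]
  refine ⟨?_, ?_, ?_, ?_, m0, ?_, ?_, ?_, ?_⟩
  · refine HasDerivAt.congr_deriv G0 ?_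
    ring
  · refine HasDerivAt.congr_deriv (K0.mul G1) ?_
    simp only [Function.comp]
    ring
  · refine HasDerivAt.congr_deriv (((K0.mul K1).mul G1).add ((K0.pow 2).mul G2)) ?_
    simp only [Function.comp, Pi.mul_apply, Pi.pow_apply, Nat.cast_ofNat, Nat.add_one_sub_one,
      pow_one]
    ring
  · refine HasDerivAt.congr_deriv (((((K0.mul (K1.pow 2)).add ((K0.pow 2).mul K2)).mul G1).add
      ((((K0.pow 2).mul K1).const_mul 3).mul G2)).add ((K0.pow 3).mul G3)) ?_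
    simp only [Function.comp, Pi.mul_apply, Pi.pow_apply, Pi.add_apply, Nat.cast_ofNat,
      Nat.add_one_sub_one, pow_one]
    ring
  · rw [abs_mul]
    calc |k (X ξ)| * |g1 (X ξ)| ≤ 2 * (A * B) := by gcongr
      _ ≤ _ := by nlinarith [mul_nonneg hA hβ0]
  · refine (abs_add_le _ _).trans ?_
    simp only [abs_mul, abs_pow]
    calc |k (X ξ)| * |k1 (X ξ)| * |g1 (X ξ)| + |k (X ξ)| ^ 2 * |g2 (X ξ)|
        ≤ 2 * (2 * β) * (A * B) + 2 ^ 2 * (A * B ^ 2) := by gcongr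
      _ = A * (4 * β * B + 4 * B ^ 2) := by ring
      _ ≤ _ := by
        gcongr
        nlinarith [mul_nonneg hB hβ0, sq_nonneg β]
  · refine (abs_add_le _ _).trans ((add_le_add_left (abs_add_le _ _) _).trans ?_)
    simp only [abs_mul, abs_pow, h3]
    have u1 : |k (X ξ) * k1 (X ξ) ^ 2 + k (X ξ) ^ 2 * k2 (X ξ)| ≤
        2 * (2 * β) ^ 2 + 2 ^ 2 * (2 * β ^ 2) := by
      refine (abs_add_le _ _).trans ?_
      simp only [abs_mul, abs_pow]
      gcongr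
    calc |k (X ξ) * k1 (X ξ) ^ 2 + k (X ξ) ^ 2 * k2 (X ξ)| * |g1 (X ξ)| +
          3 * (|k (X ξ)| ^ 2 * |k1 (X ξ)|) * |g2 (X ξ)| + |k (X ξ)| ^ 3 * |g3 (X ξ)|
        ≤ (2 * (2 * β) ^ 2 + 2 ^ 2 * (2 * β ^ 2)) * (A * B) +
          3 * (2 ^ 2 * (2 * β)) * (A * B ^ 2) + 2 ^ 3 * (A * B ^ 3) := by gcongr
      _ = A * (16 * β ^ 2 * B + 24 * β * B ^ 2 + 8 * B ^ 3) := by ring
      _ ≤ _ := by
        gcongr
        have e : (2 * B + 4 * β) ^ 3 = 16 * β ^ 2 * B + 24 * β * B ^ 2 + 8 * B ^ 3 +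
          (80 * β ^ 2 * B + 24 * β * B ^ 2 + 64 * β ^ 3) := by ring
        rw [e]
        have : 0 ≤ 80 * β ^ 2 * B + 24 * β * B ^ 2 + 64 * β ^ 3 := by positivity
        linarith
  · refine (abs_add_le _ _).trans ((add_le_add_left (abs_add_le _ _) _).trans
      ((add_le_add_left (add_le_add_left (abs_add_le _ _) _) _).trans ?_))
    simp only [abs_mul, abs_pow, h6]
    have u1 : |k (X ξ) * k1 (X ξ) ^ 3 + 4 * (k (X ξ) ^ 2 * k1 (X ξ) * k2 (X ξ)) +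
        k (X ξ) ^ 3 * k3 (X ξ)| ≤
        2 * (2 * β) ^ 3 + 4 * (2 ^ 2 * (2 * β) * (2 * β ^ 2)) + 2 ^ 3 * (2 * β ^ 3) := by
      refine (abs_add_le _ _).trans ((add_le_add_left (abs_add_le _ _) _).trans ?_)
      simp only [abs_mul, abs_pow, h4]
      gcongr
    have u2 : |7 * (k (X ξ) ^ 2 * k1 (X ξ) ^ 2) + 4 * (k (X ξ) ^ 3 * k2 (X ξ))| ≤
        7 * (2 ^ 2 * (2 * β) ^ 2) + 4 * (2 ^ 3 * (2 * β ^ 2)) := by
      refine (abs_add_le _ _).trans ?_
      simp only [abs_mul, abs_pow, h4, h7]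
      gcongr
    calc |k (X ξ) * k1 (X ξ) ^ 3 + 4 * (k (X ξ) ^ 2 * k1 (X ξ) * k2 (X ξ)) +
          k (X ξ) ^ 3 * k3 (X ξ)| * |g1 (X ξ)| +
          |7 * (k (X ξ) ^ 2 * k1 (X ξ) ^ 2) + 4 * (k (X ξ) ^ 3 * k2 (X ξ))| * |g2 (X ξ)| +
          6 * (|k (X ξ)| ^ 3 * |k1 (X ξ)|) * |g3 (X ξ)| + |k (X ξ)| ^ 4 * |g4 (X ξ)|
        ≤ (2 * (2 * β) ^ 3 + 4 * (2 ^ 2 * (2 * β) * (2 * β ^ 2)) + 2 ^ 3 * (2 * β ^ 3)) * (A * B) +
          (7 * (2 ^ 2 * (2 * β) ^ 2) + 4 * (2 ^ 3 * (2 * β ^ 2))) * (A * B ^ 2) +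
          6 * (2 ^ 3 * (2 * β)) * (A * B ^ 3) + 2 ^ 4 * (A * B ^ 4) := by gcongr
      _ = A * (96 * β ^ 3 * B + 176 * β ^ 2 * B ^ 2 + 96 * β * B ^ 3 + 16 * B ^ 4) := by ring
      _ ≤ _ := by
        gcongr
        have e : (2 * B + 4 * β) ^ 4 =
          96 * β ^ 3 * B + 176 * β ^ 2 * B ^ 2 + 96 * β * B ^ 3 + 16 * B ^ 4 +
          (416 * β ^ 3 * B + 208 * β ^ 2 * B ^ 2 + 32 * β * B ^ 3 + 256 * β ^ 4) := by ring
        rw [e]
        have : 0 ≤ 416 * β ^ 3 * B + 208 * β ^ 2 * B ^ 2 + 32 * β * B ^ 3 + 256 * β ^ 4 := by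
          positivity
        linarith

end

end Vale.Agent.P370Z.DISC
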