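import Vale.Agent.P370Z.DISC.Strong

/-! The discretization error tested against smooth functions; the final statement of the block. -/

namespace Vale.Agent.P370Z.DISC

open MeasureTheory Set

noncomputable section

/-- the remainder cut off at the radius `R` -/
def rt (R : ℝ) (t : P3) : ℝ := if nrm t ≤ R then rem 1 t else 0

theorem measurable_rt (R : ℝ) : Measurable (rt R) :=
  Measurable.ite (measurableSet_le continuous_nrm.measurable measurable_const)
    (measurable_rem one_pos) measurable_const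

theorem rt_le (R : ℝ) : ∀ᵐ t : P3, |rt R t| ≤ rb 1 R (nrm t) := by
  filter_upwards [ae_sub_ne' (0 : P3)] with t ht
  rw [sub_zero] at ht
  obtain ⟨h0, _, h2⟩ := rem_bounds one_pos ht
  unfold rt rb
  split_ifs
  · rwa [abs_of_nonneg h0]
  · simp

theorem integrable_rt (R : ℝ) : Integrable (rt R) :=
  (integrable_rb one_pos R).mono' (measurable_rt R).aestronglyMeasurable (rt_le R)

theorem integral_abs_rt {R : ℝ} (hR : 0 ≤ R) : ∫ t, |rt R t| ≤ 7 * Real.log (1 + R ^ 2) := by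
  have := integral_rb one_pos hR
  simp only [one_pow, mul_one, div_one] at this
  exact (integral_mono_ae (integrable_rt R).abs (integrable_rb one_pos R) (rt_le R)).trans this

theorem swap_conv {f w r : P3 → ℝ} (hf : Integrable f) (hr : Integrable r) (hw : Continuous w)
    {C : ℝ} (hC : ∀ x, |w x| ≤ C) :
    Integrable (fun x => w x * ∫ y, f y * r (x - y)) ∧
    Integrable (fun t => r t * ∫ y, f y * w (y + t)) ∧
    ∫ x, w x * ∫ y, f y * r (x - y) = ∫ t, r t * ∫ y, f y * w (y + t) := by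
  have i1 : Integrable (fun p : P3 × P3 => w p.1 * (f p.2 * r (p.1 - p.2))) (volume.prod volume) :=
    (hf.convolution_integrand (ContinuousLinearMap.mul ℝ ℝ) hr).bdd_mul (c := C)
      (hw.comp continuous_fst).aestronglyMeasurable (Filter.Eventually.of_forall fun p => hC _)
  have i2 : Integrable (fun p : P3 × P3 => w (p.2 + p.1) * (r p.1 * f p.2)) (volume.prod volume) :=
    (hr.mul_prod hf).bdd_mul (c := C)
      (hw.comp (continuous_snd.add continuous_fst)).aestronglyMeasurable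
      (Filter.Eventually.of_forall fun p => hC _)
  have e1 : ∀ x, w x * ∫ y, f y * r (x - y) = ∫ y, w x * (f y * r (x - y)) := fun x =>
    (integral_const_mul _ _).symm
  have e2 : ∀ t, r t * ∫ y, f y * w (y + t) = ∫ y, w (y + t) * (r t * f y) := fun t => by
    rw [← integral_const_mul]
    congr 1
    funext y
    ring
  simp only [e1, e2]
  refine ⟨i1.integral_prod_left, i2.integral_prod_left, ?_⟩
  rw [integral_integral_swap (f := fun x y => w x * (f y * r (x - y))) i1,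
    integral_integral_swap (f := fun t y => w (y + t) * (r t * f y)) i2]
  congr 1
  funext y
  rw [← integral_add_left_eq_self (fun x => w x * (f y * r (x - y))) y]
  congr 1
  funext t
  rw [add_sub_cancel_left]
  ring

theorem shift_conv {w r : P3 → ℝ} (hr : Integrable r) (hw : Continuous w) {C : ℝ}
    (hC : ∀ x, |w x| ≤ C) (a : P3) :
    Integrable (fun x => w x * r (x - a)) ∧ Integrable (fun t => r t * w (a + t)) ∧
    ∫ x, w x * r (x - a) = ∫ t, r t * w (a + t) := by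
  refine ⟨(hr.comp_sub_right a).bdd_mul (c := C) hw.aestronglyMeasurable
    (Filter.Eventually.of_forall hC), ?_, ?_⟩
  · simp only [mul_comm (r _)]
    exact hr.bdd_mul (c := C) (hw.comp (continuous_const.add continuous_id)).aestronglyMeasurable
      (Filter.Eventually.of_forall fun t => hC _)
  · rw [← integral_add_left_eq_self (fun x => w x * r (x - a)) a]
    congr 1
    funext t
    rw [add_sub_cancel_left, mul_comm]

section

variable {F : P3 → ℝ} {CF L0 : ℝ} {ρ : ℕ} {l : Fin 3 → ℕ} {X : Fin 3 → ℝ → ℝ → ℝ → ℝ}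
  {m Lm : ℕ} {y : Fin 3 → (Fin 3 → ℕ) → P3} {δ M : ℝ}

theorem err_w (D : Dat F CF ρ L0 l X) (S : Siz m Lm l M) (hy : NodesOK m ρ l F y δ) (hδ : 0 ≤ δ)
    (hL0 : 0 ≤ L0) (hL1 : L0 ≤ M) (hδ1 : δ * ((m : ℝ) ^ 4 * (Lm : ℝ) ^ 3) ≤ 1) {w : P3 → ℝ}
    {Cw : ℝ} (hw : BdM 4 Cw w) (hv : Van (fun _ => L0) w) (t : P3) :
    |(muD ρ l F fun z => w (z + t)) - nuD m ρ l y fun z => w (z + t)| ≤
      10 ^ 12 * (Cw * ρ * M ^ 6 / (m : ℝ) ^ 4) := by
  have hm : (0 : ℝ) < m := by have := S.m1; positivity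
  have hM := S.M2
  have hρ := D.rho_pos
  have hC : 0 ≤ Cw := (abs_nonneg _).trans (hw.2.1 0)
  refine (total D S hy hδ S.h_le le_rfl (by positivity) (-t)
    ((bdm_cont hw).comp (continuous_id.add continuous_const))
    (lineOK_w hw hv S.h_le hL0 t) hC (lipL_w hw t)).trans ?_
  have h1 : (L0 + 3) ^ 3 ≤ (3 * M) ^ 3 := by gcongr; linarith
  have h2 : (1 : ℝ) ≤ M ^ 6 := one_le_pow₀ (by linarith)
  have h3 : (Lm : ℝ) ^ 3 * δ ≤ M ^ 6 / (m : ℝ) ^ 4 := by
    rw [le_div_iff₀ (by positivity)]; linarith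
  calc 156 * (ρ : ℝ) * (14 ^ 4 * Cw * (L0 + 3) ^ 3) * (14 * M) ^ 3 / (m : ℝ) ^ 4 +
        144 * ρ * (Lm : ℝ) ^ 3 * Cw * δ
      = 156 * (ρ : ℝ) * (14 ^ 4 * Cw * (L0 + 3) ^ 3) * (14 * M) ^ 3 / (m : ℝ) ^ 4 +
        144 * ρ * Cw * ((Lm : ℝ) ^ 3 * δ) := by ring
    _ ≤ 156 * (ρ : ℝ) * (14 ^ 4 * Cw * (3 * M) ^ 3) * (14 * M) ^ 3 / (m : ℝ) ^ 4 +
        144 * ρ * Cw * (M ^ 6 / (m : ℝ) ^ 4) := by gcongr
    _ = (156 * 14 ^ 4 * 27 * 14 ^ 3 + 144) * (Cw * ρ * M ^ 6 / (m : ℝ) ^ 4) := by ring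
    _ ≤ _ := by gcongr; norm_num

theorem weak (D : Dat F CF ρ L0 l X) (S : Siz m Lm l M) (hy : NodesOK m ρ l F y δ) (hδ : 0 ≤ δ)
    (hL0 : 0 ≤ L0) (hL1 : L0 ≤ M) (hδ1 : δ * ((m : ℝ) ^ 4 * (Lm : ℝ) ^ 3) ≤ 1)
    (hδ2 : δ ≤ 1 / (100 * (m : ℝ))) {w : P3 → ℝ} {Cw : ℝ} (hw : BdM 4 Cw w)
    (hv : Van (fun _ => L0) w) :
    |∫ x, discErr m ρ l F y x * w x| ≤ Cw * (10 ^ 17 * ρ * M ^ 9 / (m : ℝ) ^ 4) := by
  have hm1 : (1 : ℝ) ≤ m := by exact_mod_cast S.m1
  have hm : (0 : ℝ) < m := by positivity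
  have hL : (1 : ℝ) ≤ Lm := by exact_mod_cast (S.l1 0).trans (S.lL 0)
  have hM := S.M2
  have hρ := D.rho_pos
  have hC : 0 ≤ Cw := (abs_nonneg _).trans (hw.2.1 0)
  have wc := bdm_cont hw
  set R : ℝ := 2 * (L0 + Lm + 1) with hR
  have ir := integrable_rt R
  have hlL : ∀ k, (l k : ℝ) ≤ Lm := fun k => by exact_mod_cast S.lL k
  -- the remainder may be cut off
  have cut : ∀ x a : P3, (∀ k, |a k| ≤ Lm + 1) → w x * rem 1 (x - a) = w x * rt R (x - a) := by
    intro x a ha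
    by_cases h0 : w x = 0
    · simp [h0]
    · have hx : ∀ k, |x k| ≤ L0 := fun k => not_lt.1 fun h => h0 (hv x k h)
      rw [rt, if_pos (nrm_le fun k => ?_)]
      have := abs_sub (x k) (a k)
      simp only [Pi.sub_apply]
      linarith [hx k, ha k]
  have hya : ∀ i, ∀ n ∈ nodes m l, ∀ k, |y i n k| ≤ Lm + 1 := by
    intro i n hn k
    have h1 := abs_le.1 (node_near D hy hδ i hn k)
    have h2 := abs_le.1 (node_abs D S.m1 i hn k)
    have h3 : 1 / (100 * (m : ℝ)) ≤ 1 / 100 := one_div_le_one_div_of_le (by norm_num) (by linarith)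
    rw [abs_le]; constructor <;> linarith [h1.1, h1.2, h2.1, h2.2, hlL k]
  set f : P3 → ℝ := (box l).indicator (dens ρ F) with hf
  have fi : Integrable f := (integrable_indicator_iff (measurableSet_box l)).2
    (D.cont_dens.continuousOn.integrableOn_compact (isCompact_box l))
  have muf : ∀ g : P3 → ℝ, muD ρ l F g = ∫ z, f z * g z := fun g => by
    rw [muD_eq, ← integral_indicator (measurableSet_box l)]
    congr 1
    funext z
    rw [hf, indicator_mul_left]
  have e2 : ∀ x, w x * (muD ρ l F fun t => rem 1 (x - t)) = w x * ∫ z, f z * rt R (x - z) := by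
    intro x
    rw [muf, ← integral_const_mul, ← integral_const_mul]
    congr 1
    funext z
    by_cases hz : z ∈ box l
    · have := cut x z fun k => by linarith [hz k, hlL k]
      calc w x * (f z * rem 1 (x - z)) = f z * (w x * rem 1 (x - z)) := by ring
        _ = _ := by rw [this]; ring
    · simp [hf, indicator_of_notMem hz]
  have e3 : ∀ x, w x * (nuD m ρ l y fun t => rem 1 (x - t)) =
      ∑ i, ∑ n ∈ nodes m l, zz m ρ n * (w x * rt R (x - y i n)) := by
    intro x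
    simp only [nuD_eq, Finset.mul_sum]
    refine Finset.sum_congr rfl fun i _ => Finset.sum_congr rfl fun n hn => ?_
    rw [← cut x _ (hya i n hn)]
    ring
  obtain ⟨i2, i2', s2⟩ := swap_conv fi ir wc hw.2.1
  have s3 := fun a => shift_conv ir wc hw.2.1 a
  have i3 : Integrable fun x => ∑ i, ∑ n ∈ nodes m l, zz m ρ n * (w x * rt R (x - y i n)) :=
    integrable_finsetSum _ fun i _ => integrable_finsetSum _ fun n _ => (s3 _).1.const_mul _
  have i3' : Integrable fun t => ∑ i, ∑ n ∈ nodes m l, zz m ρ n * (rt R t * w (y i n + t)) :=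
    integrable_finsetSum _ fun i _ => integrable_finsetSum _ fun n _ => (s3 _).2.1.const_mul _
  have s3' : ∫ x, ∑ i, ∑ n ∈ nodes m l, zz m ρ n * (w x * rt R (x - y i n)) =
      ∫ t, ∑ i, ∑ n ∈ nodes m l, zz m ρ n * (rt R t * w (y i n + t)) := by
    rw [integral_finsetSum _ fun i _ => integrable_finsetSum _ fun n _ => (s3 _).1.const_mul _,
      integral_finsetSum _ fun i _ => integrable_finsetSum _ fun n _ => (s3 _).2.1.const_mul _]
    refine Finset.sum_congr rfl fun i _ => ?_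
    rw [integral_finsetSum _ fun n _ => (s3 _).1.const_mul _,
      integral_finsetSum _ fun n _ => (s3 _).2.1.const_mul _]
    refine Finset.sum_congr rfl fun n _ => ?_
    rw [integral_const_mul, integral_const_mul, (s3 _).2.2]
  -- the regular part
  set D1 : P3 → ℝ := fun x =>
    (muD ρ l F fun t => ks 1 (x - t)) - nuD m ρ l y fun t => ks 1 (x - t) with hD1
  have mD1 : Measurable D1 := (measurable_muD D (continuous_ks one_pos).measurable).sub
    (measurable_nuD (continuous_ks one_pos).measurable)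
  set c1 : ℝ := 10 ^ 15 * ρ * M ^ 6 / (1 ^ 2 * (m : ℝ) ^ 4) with hc1
  have c10 : 0 ≤ c1 := by positivity
  have bD1 : ∀ x, |D1 x| ≤ c1 := fun x => err_ks D S hy hδ hL0 hL1 hδ1 S.h_le le_rfl x
  set Q : Set P3 := Icc (fun _ => -L0) (fun _ => L0) with hQ
  have iQ : Integrable (Q.indicator fun _ => c1 * Cw) :=
    (integrable_indicator_iff measurableSet_Icc).2
      (integrableOn_const isCompact_Icc.measure_lt_top.ne)
  have b1 : ∀ x, ‖D1 x * w x‖ ≤ Q.indicator (fun _ => c1 * Cw) x := by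
    intro x
    by_cases hx : x ∈ Q
    · rw [indicator_of_mem hx]
      exact abs_mul_le' (bD1 x) (hw.2.1 x)
    · rw [indicator_of_notMem hx]
      have : w x = 0 := by
        by_contra h0
        refine hx ?_
        have hx' : ∀ k, |x k| ≤ L0 := fun k => not_lt.1 fun h => h0 (hv x k h)
        exact ⟨fun k => (abs_le.1 (hx' k)).1, fun k => (abs_le.1 (hx' k)).2⟩
      simp [this]
  have i1 : Integrable fun x => D1 x * w x :=
    iQ.mono' (mD1.mul wc.measurable).aestronglyMeasurable (Filter.Eventually.of_forall b1)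
  have n1 : |∫ x, D1 x * w x| ≤ 8 * 10 ^ 15 * (Cw * ρ * M ^ 9 / (m : ℝ) ^ 4) := by
    refine (norm_integral_le_of_norm_le iQ (Filter.Eventually.of_forall b1)).trans ?_
    rw [integral_indicator measurableSet_Icc, setIntegral_const, smul_eq_mul,
      volume_cube (L := fun _ => L0) fun _ => hL0, Fin.prod_univ_three]
    calc 2 * L0 * (2 * L0) * (2 * L0) * (c1 * Cw) ≤ 2 * M * (2 * M) * (2 * M) * (c1 * Cw) := by
          gcongr
      _ = _ := by rw [hc1]; ring
  have split : ∫ x, discErr m ρ l F y x * w x = (∫ x, D1 x * w x) +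
      ∫ t, rt R t * ((muD ρ l F fun z => w (z + t)) - nuD m ρ l y fun z => w (z + t)) := by
    have e4 : ∀ x, discErr m ρ l F y x * w x = D1 x * w x + ((w x * ∫ z, f z * rt R (x - z)) -
        ∑ i, ∑ n ∈ nodes m l, zz m ρ n * (w x * rt R (x - y i n))) := fun x => by
      rw [discErr_split D S one_pos x, ← e2, ← e3]
      ring
    have e5 : ∀ t, rt R t * ((muD ρ l F fun z => w (z + t)) - nuD m ρ l y fun z => w (z + t)) =
        (rt R t * ∫ z, f z * w (z + t)) -
          ∑ i, ∑ n ∈ nodes m l, zz m ρ n * (rt R t * w (y i n + t)) := fun t => by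
      rw [muf, nuD_eq, mul_sub]
      simp only [Finset.mul_sum]
      congr 1
      exact Finset.sum_congr rfl fun i _ => Finset.sum_congr rfl fun n _ => by ring
    have i23 : Integrable fun x => (w x * ∫ z, f z * rt R (x - z)) -
        ∑ i, ∑ n ∈ nodes m l, zz m ρ n * (w x * rt R (x - y i n)) := i2.sub i3
    simp only [e4, e5]
    rw [integral_add i1 i23, integral_sub i2 i3, integral_sub i2' i3', s2, s3']
  have hlog : Real.log (1 + R ^ 2) ≤ 14 * M := by
    have h1 : (Lm : ℝ) ≤ m * Lm := by nlinarith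
    have h2 : Real.log Lm ≤ M := (Real.log_le_log (by positivity) h1).trans S.log
    have h3 : R ≤ 5 * M * Lm := by rw [hR]; nlinarith
    have h4 : 1 ≤ R := by rw [hR]; linarith
    have h5 : 1 + R ^ 2 ≤ 2 * (5 * M * Lm) ^ 2 := by nlinarith
    have h6 := Real.log_le_sub_one_of_pos (by norm_num : (0 : ℝ) < 2)
    have h7 := Real.log_le_sub_one_of_pos (by positivity : (0 : ℝ) < 5 * M)
    calc Real.log (1 + R ^ 2) ≤ Real.log (2 * (5 * M * Lm) ^ 2) :=
          Real.log_le_log (by positivity) h5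
      _ = Real.log 2 + 2 * (Real.log (5 * M) + Real.log Lm) := by
          rw [Real.log_mul (by norm_num) (by positivity), Real.log_pow,
            Real.log_mul (by positivity) (by positivity)]
          norm_num
      _ ≤ 14 * M := by linarith
  have n2 : |∫ t, rt R t * ((muD ρ l F fun z => w (z + t)) - nuD m ρ l y fun z => w (z + t))| ≤
      98 * 10 ^ 12 * (Cw * ρ * M ^ 9 / (m : ℝ) ^ 4) := by
    have hb : ∀ t, ‖rt R t * ((muD ρ l F fun z => w (z + t)) - nuD m ρ l y fun z => w (z + t))‖ ≤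
        |rt R t| * (10 ^ 12 * (Cw * ρ * M ^ 6 / (m : ℝ) ^ 4)) := fun t =>
      abs_mul_le' le_rfl (err_w D S hy hδ hL0 hL1 hδ1 hw hv t)
    refine (norm_integral_le_of_norm_le
      (ir.abs.mul_const (10 ^ 12 * (Cw * ρ * M ^ 6 / (m : ℝ) ^ 4)))
      (Filter.Eventually.of_forall hb)).trans ?_
    · rw [integral_mul_const]
      have h1 := integral_abs_rt (R := R) (by positivity)
      have h2 : M ≤ M ^ 3 := le_self_pow₀ (by linarith) (by norm_num)
      calc (∫ t, |rt R t|) * (10 ^ 12 * (Cw * ρ * M ^ 6 / (m : ℝ) ^ 4))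
          ≤ 7 * (14 * M ^ 3) * (10 ^ 12 * (Cw * ρ * M ^ 6 / (m : ℝ) ^ 4)) := by
            gcongr; linarith
        _ = _ := by ring
  rw [split]
  have h9 : 0 ≤ Cw * ρ * M ^ 9 / (m : ℝ) ^ 4 := by positivity
  have e : Cw * (10 ^ 17 * ρ * M ^ 9 / (m : ℝ) ^ 4) = 10 ^ 17 * (Cw * ρ * M ^ 9 / (m : ℝ) ^ 4) := by
    ring
  rw [e]
  refine (abs_add_le _ _).trans ?_
  linarith

end

end

end Vale.Agent.P370Z.DISC

namespace Vale.Agent.P370Z

open MeasureTheory Finset DISC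

theorem disc (CF : ℝ) (ρ : ℕ) (hCF : 1 ≤ CF) (hρ : 2 * CF ≤ ρ) : ∃ κ : ℕ,
    ∀ (m Lm : ℕ) (l : Fin 3 → ℕ) (F : P3 → ℝ) (y : Fin 3 → (Fin 3 → ℕ) → P3) (δ L0 M : ℝ),
    1 ≤ m → (∀ k, 1 ≤ l k) → (∀ k, l k ≤ Lm) → BdM 6 CF F →
    (∀ x, F x ≠ 0 → ∀ k, |x k| ≤ (l k : ℝ) - 1) → (∀ x, F x ≠ 0 → ∀ k, |x k| ≤ L0) →
    2 ≤ M → 0 ≤ L0 → L0 ≤ M → Real.log (m * Lm) ≤ M → NodesOK m ρ l F y δ → 0 ≤ δ →
    δ * ((m : ℝ) * Lm + 1) ^ κ ≤ 1 →
    DiscOK (discErr m ρ l F y) L0 (M ^ κ / (m : ℝ) ^ 4) (M ^ κ / (m : ℝ) ^ 2) := by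
  obtain ⟨K, hK1, hK⟩ := exists_chi0_bound
  obtain ⟨j, hj⟩ := pow_unbounded_of_one_lt (10 ^ 17 * K * ρ) (one_lt_two (α := ℝ))
  refine ⟨j + 9, fun m Lm l F y δ L0 M hm hl hL hF h1 h2 hM hL0 hL1 hlog hy hδ hδκ => ?_⟩
  have S : Siz m Lm l M := ⟨hm, hl, hL, hM, hlog⟩
  obtain ⟨X, D⟩ := exists_dat (l := l) hF hCF hρ (Van.of_supp h1) (Van.of_supp h2)
  have hm1 : (1 : ℝ) ≤ m := by exact_mod_cast hm
  have hL' : (1 : ℝ) ≤ Lm := by exact_mod_cast (hl 0).trans (hL 0)
  have hρ0 := D.rho_pos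
  have hq : (m : ℝ) + 1 ≤ m * Lm + 1 := by nlinarith
  have hq1 : (Lm : ℝ) ≤ m * Lm + 1 := by nlinarith
  have hq2 : (2 : ℝ) ≤ m * Lm + 1 := by linarith
  have h9 : δ * ((m : ℝ) * Lm + 1) ^ 9 ≤ 1 :=
    (mul_le_mul_of_nonneg_left (pow_le_pow_right₀ (by linarith) (by omega)) hδ).trans hδκ
  have hδ1 : δ * ((m : ℝ) ^ 4 * (Lm : ℝ) ^ 3) ≤ 1 := by
    refine (mul_le_mul_of_nonneg_left ?_ hδ).trans h9
    calc (m : ℝ) ^ 4 * (Lm : ℝ) ^ 3 ≤ ((m : ℝ) * Lm + 1) ^ 4 * ((m : ℝ) * Lm + 1) ^ 3 := by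
          gcongr; linarith
      _ = ((m : ℝ) * Lm + 1) ^ 7 := by ring
      _ ≤ _ := pow_le_pow_right₀ (by linarith) (by norm_num)
  have hδ2 : δ ≤ 1 / (100 * (m : ℝ)) := by
    rw [le_div_iff₀ (by positivity)]
    refine (mul_le_mul_of_nonneg_left ?_ hδ).trans h9
    calc 100 * (m : ℝ) ≤ 2 ^ 8 * ((m : ℝ) * Lm + 1) := by linarith
      _ ≤ ((m : ℝ) * Lm + 1) ^ 8 * ((m : ℝ) * Lm + 1) := by gcongr
      _ = _ := by ring
  have hj' : 10 ^ 17 * K * ρ ≤ M ^ j := hj.le.trans (by gcongr)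
  have hM9 : 10 ^ 17 * K * ρ * M ^ 9 ≤ M ^ (j + 9) := by
    rw [pow_add]; gcongr
  have st := fun u (hu : C1c u) => strong hK1 hK D S hy hδ hL0 hL1 hδ1 hδ2 hu
  refine ⟨potOK_of_int (measurable_discErr D) fun u hu => (st u hu).1, fun w Cw hw hs => ?_,
    fun u hu => (st u hu).1, fun u hu => (st u hu).2.trans ?_⟩
  · refine (weak D S hy hδ hL0 hL1 hδ1 hδ2 hw (Van.of_supp hs)).trans ?_
    have hC : 0 ≤ Cw := (abs_nonneg _).trans (hw.2.1 0)
    gcongr
    refine le_trans ?_ hM9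
    have : (0 : ℝ) ≤ ρ * M ^ 9 := by positivity
    nlinarith
  · have p1 : 0 ≤ ip u u := by rw [ip_self]; exact integral_nonneg fun x => sq_nonneg _
    have p2 : 0 ≤ 2 * kin1 u u := by
      rw [kin_self]; exact Finset.sum_nonneg fun k _ => integral_nonneg fun x => sq_nonneg _
    gcongr
    refine le_trans ?_ hM9
    gcongr
    · linarith
    · norm_num

end Vale.Agent.P370Z
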