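import Vale.Agent.P370Z.DISC.Core

/-! Exact and actual nodes; the total quadrature error for smooth functions; the regularised
kernel and translated test functions. -/

namespace Vale.Agent.P370Z.DISC

open MeasureTheory Set

noncomputable section

/-- the exact node -/
def node (m : ℕ) (l : Fin 3 → ℕ) (X : Fin 3 → ℝ → ℝ → ℝ → ℝ) (i : Fin 3) (n : Fin 3 → ℕ) : P3 :=
  mk3 i (X i (xi m (l (a1 i)) (n (a1 i))) (xi m (l (a2 i)) (n (a2 i))) (xi m (l i) (n i)))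
    (xi m (l (a1 i)) (n (a1 i))) (xi m (l (a2 i)) (n (a2 i)))

/-- the charge of a node -/
def zz (m : ℕ) (ρ : ℝ) (n : Fin 3 → ℕ) : ℝ := ρ / (512 * (m : ℝ) ^ 3) * ((∏ k, wt (n k) : ℕ) : ℝ)

theorem zz_nonneg (m : ℕ) {ρ : ℝ} (hρ : 0 ≤ ρ) (n : Fin 3 → ℕ) : 0 ≤ zz m ρ n := by
  unfold zz; positivity

theorem zz_le (m : ℕ) {ρ : ℝ} (hρ : 0 ≤ ρ) (n : Fin 3 → ℕ) : zz m ρ n ≤ ρ / (m : ℝ) ^ 3 := by
  have h : ∀ j, (wt j : ℝ) ≤ 3 := fun j => by unfold wt; split_ifs <;> norm_num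
  have h0 : ∀ j, (0 : ℝ) ≤ wt j := fun j => Nat.cast_nonneg _
  unfold zz
  rw [Nat.cast_prod, Fin.prod_univ_three]
  calc ρ / (512 * (m : ℝ) ^ 3) * ((wt (n 0) : ℝ) * wt (n 1) * wt (n 2))
      ≤ ρ / (512 * (m : ℝ) ^ 3) * (3 * 3 * 3) := by gcongr <;> apply h
    _ = 27 / 512 * (ρ / (m : ℝ) ^ 3) := by ring
    _ ≤ 1 * (ρ / (m : ℝ) ^ 3) := by gcongr; norm_num
    _ = _ := one_mul _

theorem nuX_eq {m : ℕ} (hm : 1 ≤ m) (ρ : ℝ) (l : Fin 3 → ℕ) (X : Fin 3 → ℝ → ℝ → ℝ → ℝ)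
    (i : Fin 3) (g : P3 → ℝ) :
    nuX m ρ l X i g = ∑ n ∈ nodes m l, zz m ρ n * g (node m l X i n) :=
  (sum_nodes_Q1 i hm l ρ fun t u v => g (mk3 i (X i u v t) u v)).symm

theorem nuD_eq (m ρ : ℕ) (l : Fin 3 → ℕ) (y : Fin 3 → (Fin 3 → ℕ) → P3) (g : P3 → ℝ) :
    nuD m ρ l y g = ∑ i, ∑ n ∈ nodes m l, zz m ρ n * g (y i n) := rfl

theorem Q1_one {m : ℕ} (hm : 1 ≤ m) (l : ℕ) : Q1 m l (fun _ => 1) ≤ 2 * l := by
  refine (Q1_le hm l (E := fun _ => 1) continuous_const fun _ _ _ => le_rfl).trans_eq ?_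
  simp; ring

theorem sum_zz {m Lm : ℕ} {l : Fin 3 → ℕ} {M : ℝ} (S : Siz m Lm l M) {ρ : ℝ} (hρ : 0 ≤ ρ) :
    ∑ n ∈ nodes m l, zz m ρ n ≤ 8 * ρ * (Lm : ℝ) ^ 3 := by
  have h := sum_nodes_Q1 0 S.m1 l ρ fun _ _ _ => 1
  simp only [mul_one] at h
  have hl : ∀ k, Q1 m (l k) (fun _ => 1) ≤ 2 * Lm := fun k => (Q1_one S.m1 _).trans (by
    have : (l k : ℝ) ≤ Lm := by exact_mod_cast S.lL k
    linarith)
  have e : ∀ (k : ℕ) (c : ℝ), Q1 m k (fun _ => c) = c * Q1 m k (fun _ => 1) := fun k c => by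
    rw [← Q1_const_mul]; simp
  have p : ∀ k : ℕ, 0 ≤ Q1 m k (fun _ => 1) := fun k => Q1_nonneg fun _ => zero_le_one
  unfold zz
  rw [h, e, e (l (a1 0))]
  have := p (l 0)
  have := p (l (a1 0))
  have := p (l (a2 0))
  calc ρ * Q1 m (l 0) (fun _ => 1) * Q1 m (l (a1 0)) (fun _ => 1) * Q1 m (l (a2 0)) (fun _ => 1)
      ≤ ρ * (2 * Lm) * (2 * Lm) * (2 * Lm) := by gcongr <;> apply hl
    _ = _ := by ring

theorem xi_sep {m : ℕ} (hm : 1 ≤ m) (l : ℕ) {a b : ℕ} (h : a ≠ b) :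
    1 / (3 * (m : ℝ)) ≤ |(xi m l a : ℝ) - xi m l b| := by
  have hm' : (0 : ℝ) < m := by positivity
  have e : (xi m l a : ℝ) - xi m l b = ((a : ℝ) - b) / (3 * m) := by
    simp only [xi]; field_simp; ring
  rw [e, abs_div, abs_of_pos (by positivity : (0 : ℝ) < 3 * m)]
  gcongr
  have : (1 : ℤ) ≤ |(a : ℤ) - b| := Int.one_le_abs (by omega)
  exact_mod_cast this

theorem xi_abs {m : ℕ} (hm : 1 ≤ m) {l a : ℕ} (h : a < 6 * m * l) : |(xi m l a : ℝ)| ≤ l := by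
  have hm' : (0 : ℝ) < m := by positivity
  have h1 : (a : ℝ) + 1 ≤ 6 * m * l := by exact_mod_cast h
  have h2 : (2 * (a : ℝ) + 1) / (6 * m) ≤ 2 * l := by
    rw [div_le_iff₀ (by positivity)]; nlinarith
  have h3 : 0 ≤ (2 * (a : ℝ) + 1) / (6 * m) := by positivity
  simp only [xi]
  rw [abs_le]; constructor <;> linarith

section

variable {F : P3 → ℝ} {CF L0 : ℝ} {ρ : ℕ} {l : Fin 3 → ℕ} {X : Fin 3 → ℝ → ℝ → ℝ → ℝ}
  {m : ℕ} {y : Fin 3 → (Fin 3 → ℕ) → P3} {δ : ℝ}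

theorem node_near (D : Dat F CF ρ L0 l X) (hy : NodesOK m ρ l F y δ) (hδ : 0 ≤ δ) (i : Fin 3)
    {n : Fin 3 → ℕ} (hn : n ∈ nodes m l) (k : Fin 3) : |y i n k - node m l X i n k| ≤ 2 * δ := by
  obtain ⟨h1, h2⟩ := hy i n hn
  revert k
  refine forall_three i ?_ ?_ ?_
  · rw [update_eq_mk] at h2
    simp only [node, mk_same]
    refine (D.lip i (xi m (l (a1 i)) (n (a1 i))) (xi m (l (a2 i)) (n (a2 i))) _ _).trans ?_
    rw [D.right]
    exact mul_le_mul_of_nonneg_left h2 (by norm_num)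
  · simp only [node, mk_a1]
    linarith [h1 _ (a1_ne i)]
  · simp only [node, mk_a2]
    linarith [h1 _ (a2_ne i)]

theorem node_sep (D : Dat F CF ρ L0 l X) (hm : 1 ≤ m) (i : Fin 3) {n n' : Fin 3 → ℕ}
    (h : n ≠ n') : ∃ k, 2 / (9 * (m : ℝ)) ≤ |node m l X i n k - node m l X i n' k| := by
  have hm' : (0 : ℝ) < m := by positivity
  have e : 2 / (9 * (m : ℝ)) ≤ 1 / (3 * (m : ℝ)) := by
    rw [div_le_div_iff₀ (by positivity) (by positivity)]; linarith
  by_cases h1 : n (a1 i) = n' (a1 i)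
  · by_cases h2 : n (a2 i) = n' (a2 i)
    · have h0 : n i ≠ n' i := fun h0 => h (funext (forall_three i h0 h1 h2))
      refine ⟨i, ?_⟩
      simp only [node, mk_same, h1, h2]
      have h3 := D.lip_lam i (xi m (l (a1 i)) (n' (a1 i))) (xi m (l (a2 i)) (n' (a2 i)))
        (X i (xi m (l (a1 i)) (n' (a1 i))) (xi m (l (a2 i)) (n' (a2 i))) (xi m (l i) (n i)))
        (X i (xi m (l (a1 i)) (n' (a1 i))) (xi m (l (a2 i)) (n' (a2 i))) (xi m (l i) (n' i)))
      rw [D.right, D.right] at h3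
      have h4 := xi_sep hm (l i) h0
      have e2 : 2 / (9 * (m : ℝ)) = 2 / 3 * (1 / (3 * (m : ℝ))) := by field_simp; norm_num
      linarith
    · exact ⟨a2 i, by simpa only [node, mk_a2] using e.trans (xi_sep hm _ h2)⟩
  · exact ⟨a1 i, by simpa only [node, mk_a1] using e.trans (xi_sep hm _ h1)⟩

theorem node_abs (D : Dat F CF ρ L0 l X) (hm : 1 ≤ m) (i : Fin 3) {n : Fin 3 → ℕ}
    (hn : n ∈ nodes m l) (k : Fin 3) : |node m l X i n k| ≤ l k + 1 / 2 := by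
  simp only [nodes, Fintype.mem_piFinset, Finset.mem_range] at hn
  revert k
  refine forall_three i ?_ ?_ ?_
  · simp only [node, mk_same]
    have h1 := D.right i (xi m (l (a1 i)) (n (a1 i))) (xi m (l (a2 i)) (n (a2 i)))
      (xi m (l i) (n i))
    have h2 := abs_le.1 (abs_div_rho D.cf D.rho zero_le_one (((D.bd.2.2 i).2.1 (mk3 i
      (X i (xi m (l (a1 i)) (n (a1 i))) (xi m (l (a2 i)) (n (a2 i))) (xi m (l i) (n i)))
      (xi m (l (a1 i)) (n (a1 i))) (xi m (l (a2 i)) (n (a2 i))))).trans_eq (mul_one _).symm))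
    have h3 := abs_le.1 (xi_abs hm (hn i))
    unfold lam at h1
    rw [abs_le]; constructor <;> linarith [h2.1, h2.2, h3.1, h3.2]
  · simp only [node, mk_a1]
    linarith [xi_abs hm (hn (a1 i))]
  · simp only [node, mk_a2]
    linarith [xi_abs hm (hn (a2 i))]

end

/-! ### Lipschitz bounds -/

/-- Lipschitz along the coordinate lines -/
def LipL (g : P3 → ℝ) (K : ℝ) : Prop :=
  ∀ (k : Fin 3) (y : P3) (t t' : ℝ),
    |g (Function.update y k t) - g (Function.update y k t')| ≤ K * |t - t'|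

theorem LipL.three {g : P3 → ℝ} {K d : ℝ} (h : LipL g K) (hK : 0 ≤ K) {y y' : P3}
    (hd : ∀ k, |y k - y' k| ≤ d) : |g y - g y'| ≤ 3 * K * d := by
  have h0 := h 0 (mk3 0 0 (y 1) (y 2)) (y 0) (y' 0)
  have h1 := h (a1 0) (mk3 0 (y' 0) 0 (y 2)) (y 1) (y' 1)
  have h2 := h (a2 0) (mk3 0 (y' 0) (y' 1) 0) (y 2) (y' 2)
  simp only [update_mk_same] at h0
  simp only [update_mk_a1] at h1
  simp only [update_mk_a2] at h2
  have e : mk3 0 (y 0) (y 1) (y 2) = y := mk_eta 0 y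
  have e' : mk3 0 (y' 0) (y' 1) (y' 2) = y' := mk_eta 0 y'
  rw [e] at h0
  rw [e'] at h2
  have b0 := abs_le.1 (h0.trans (mul_le_mul_of_nonneg_left (hd 0) hK))
  have b1 := abs_le.1 (h1.trans (mul_le_mul_of_nonneg_left (hd 1) hK))
  have b2 := abs_le.1 (h2.trans (mul_le_mul_of_nonneg_left (hd 2) hK))
  rw [abs_le]; constructor <;> linarith [b0.1, b0.2, b1.1, b1.2, b2.1, b2.2]

theorem lip_of_deriv {f f' : ℝ → ℝ} {K : ℝ} (hd : ∀ t, HasDerivAt f (f' t) t)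
    (hb : ∀ t, |f' t| ≤ K) (t t' : ℝ) : |f t - f t'| ≤ K * |t - t'| := by
  have := (convex_univ (𝕜 := ℝ) (E := ℝ)).norm_image_sub_le_of_norm_hasDerivWithin_le
    (f := f) (f' := f') (C := K) (fun x _ => (hd x).hasDerivWithinAt) (fun x _ => hb x)
    (mem_univ t') (mem_univ t)
  simpa using this

theorem Sm.lip {g : ℝ → ℝ} {A B : ℝ} (h : Sm g univ A B) (t t' : ℝ) :
    |g t - g t'| ≤ A * B * |t - t'| := by
  obtain ⟨g1, g2, g3, g4, h⟩ := h
  exact lip_of_deriv (fun t => (h t (mem_univ t)).1)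
    (fun t => (h t (mem_univ t)).2.2.2.2.2.1) t t'

/-! ### The total error for smooth functions -/

theorem isCompact_box (l : Fin 3 → ℕ) : IsCompact (box l) := by
  have : box l = Icc (fun k => -(l k : ℝ)) (fun k => (l k : ℝ)) := by
    ext x
    simp only [box, mem_ofPred_eq, mem_Icc, Pi.le_def, abs_le, forall_and]
  rw [this]; exact isCompact_Icc

theorem measurableSet_box (l : Fin 3 → ℕ) : MeasurableSet (box l) :=
  (isCompact_box l).isClosed.measurableSet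

theorem total {F : P3 → ℝ} {CF L0 : ℝ} {ρ : ℕ} {l : Fin 3 → ℕ} {X : Fin 3 → ℝ → ℝ → ℝ → ℝ}
    (D : Dat F CF ρ L0 l X) {m Lm : ℕ} {M s c : ℝ} (S : Siz m Lm l M)
    {y : Fin 3 → (Fin 3 → ℕ) → P3} {δ : ℝ} (hy : NodesOK m ρ l F y δ) (hδ : 0 ≤ δ)
    (hs : 1 / (m : ℝ) ≤ s) (hs1 : s ≤ 1) (hc : 0 ≤ c) (cc : P3) {g : P3 → ℝ} (hg : Continuous g)
    (hL : LineOK g (1 / m) L0 fun y => c * envP cc s y) {K : ℝ} (hK : 0 ≤ K) (hlip : LipL g K) :
    |muD ρ l F g - nuD m ρ l y g| ≤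
      156 * ρ * c * (14 * M) ^ 3 / (m : ℝ) ^ 4 + 144 * ρ * (Lm : ℝ) ^ 3 * K * δ := by
  have hρ := D.rho_pos
  have e1 : muD ρ l F g = ∑ i, ∫ y in box l, ((ρ : ℝ) + pd i (pd i F) y) * g y := by
    unfold muD
    rw [← integral_finsetSum]
    · congr 1
      funext y
      simp only [Fin.sum_univ_three]
      ring
    · intro i _
      exact ((continuous_const.add (bdm_cont (D.bdA i))).mul hg).continuousOn.integrableOn_compact
        (isCompact_box l)
  rw [e1, nuD_eq, ← Finset.sum_sub_distrib]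
  have key : ∀ i, |(∫ y in box l, ((ρ : ℝ) + pd i (pd i F) y) * g y) -
      ∑ n ∈ nodes m l, zz m ρ n * g (y i n)| ≤
      52 * ρ * c * (14 * M) ^ 3 / (m : ℝ) ^ 4 + 48 * ρ * (Lm : ℝ) ^ 3 * K * δ := by
    intro i
    have h1 := core D S hs hs1 hc cc hg hL i
    have h2 : |nuX m ρ l X i g - ∑ n ∈ nodes m l, zz m ρ n * g (y i n)| ≤
        48 * ρ * (Lm : ℝ) ^ 3 * K * δ := by
      rw [nuX_eq S.m1, ← Finset.sum_sub_distrib]
      refine (Finset.abs_sum_le_sum_abs _ _).trans ?_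
      calc ∑ n ∈ nodes m l, |zz m ρ n * g (node m l X i n) - zz m ρ n * g (y i n)|
          ≤ ∑ n ∈ nodes m l, zz m ρ n * (3 * K * (2 * δ)) := by
            refine Finset.sum_le_sum fun n hn => ?_
            rw [← mul_sub, abs_mul, abs_of_nonneg (zz_nonneg m hρ.le n), abs_sub_comm]
            exact mul_le_mul_of_nonneg_left (hlip.three hK (node_near D hy hδ i hn))
              (zz_nonneg m hρ.le n)
        _ ≤ 8 * ρ * (Lm : ℝ) ^ 3 * (3 * K * (2 * δ)) := by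
            rw [← Finset.sum_mul]
            exact mul_le_mul_of_nonneg_right (sum_zz S hρ.le) (by positivity)
        _ = _ := by ring
    have b1 := abs_le.1 h1
    have b2 := abs_le.1 h2
    rw [abs_le]; constructor <;> linarith [b1.1, b1.2, b2.1, b2.2]
  refine (Finset.abs_sum_le_sum_abs _ _).trans ((Finset.sum_le_sum fun i _ => key i).trans_eq ?_)
  simp only [Finset.sum_const, Finset.card_univ, Fintype.card_fin, nsmul_eq_mul]
  push_cast
  ring

/-! ### The regularised kernel -/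

/-- the regularised Coulomb kernel -/
def ks (s : ℝ) (t : P3) : ℝ := 1 / √(∑ k, t k ^ 2 + s ^ 2)

theorem continuous_ks {s : ℝ} (hs : 0 < s) : Continuous (ks s) := by
  unfold ks
  refine continuous_const.div (by fun_prop) fun t => ?_
  positivity

theorem ks_line (s : ℝ) (x y : P3) (k : Fin 3) (t : ℝ) :
    ks s (x - Function.update y k t) =
      psi (x k) (√((x (a1 k) - y (a1 k)) ^ 2 + (x (a2 k) - y (a2 k)) ^ 2 + s ^ 2)) t := by
  unfold ks psi
  rw [Real.sq_sqrt (by positivity), sum_three k, update_eq_mk]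
  simp only [Pi.sub_apply, mk_same, mk_a1, mk_a2]
  congr 2
  ring

theorem ks_le_psi {s : ℝ} (hs : 0 < s) (x y : P3) (k : Fin 3) :
    ks s (x - y) ≤ psi (x k) s (y k) := by
  unfold ks psi
  refine one_div_le_one_div_of_le (by positivity) (Real.sqrt_le_sqrt ?_)
  rw [sum_three k]
  simp only [Pi.sub_apply]
  nlinarith [sq_nonneg (x (a1 k) - y (a1 k)), sq_nonneg (x (a2 k) - y (a2 k))]

theorem ks_nonneg (s : ℝ) (t : P3) : 0 ≤ ks s t := by unfold ks; positivity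

theorem ks_cube_le {s : ℝ} (hs : 0 < s) (x y : P3) : ks s (x - y) ^ 3 ≤ envP x s y := by
  have h : ∀ k, ks s (x - y) ≤ env (x k) s (y k) := fun k =>
    (ks_le_psi hs x y k).trans (le_add_of_nonneg_right (psi_nonneg _ _ _))
  have h0 := ks_nonneg s (x - y)
  rw [envP, Fin.prod_univ_three]
  calc ks s (x - y) ^ 3 = ks s (x - y) * ks s (x - y) * ks s (x - y) := by ring
    _ ≤ _ := by
      have := env_nonneg (x 0) s (y 0)
      have := env_nonneg (x 1) s (y 1)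
      gcongr <;> apply h

theorem th_le_psi {L0 : ℝ} (hL : 0 ≤ L0) (c y : P3) :
    th L0 (y - c) ≤ (L0 + 3) ^ 3 * ∏ k, psi (c k) 1 (y k) := by
  unfold th
  split_ifs with h
  · have key : ∀ k, 1 ≤ (L0 + 3) * psi (c k) 1 (y k) := fun k => by
      unfold psi
      rw [mul_one_div, le_div_iff₀ (by positivity), one_mul]
      refine Real.sqrt_le_iff.2 ⟨by positivity, ?_⟩
      have h1 := abs_le.1 (h k)
      simp only [Pi.sub_apply] at h1
      nlinarith [h1.1, h1.2]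
    rw [Fin.prod_univ_three]
    have k0 := key 0
    have k1 := key 1
    have k2 := key 2
    calc (1 : ℝ) = 1 * 1 * 1 := by ring
      _ ≤ (L0 + 3) * psi (c 0) 1 (y 0) * ((L0 + 3) * psi (c 1) 1 (y 1)) *
        ((L0 + 3) * psi (c 2) 1 (y 2)) := by gcongr
      _ = _ := by ring
  · exact mul_nonneg (by positivity) (Finset.prod_nonneg fun k _ => psi_nonneg _ _ _)

theorem th_le_envP {L0 : ℝ} (hL : 0 ≤ L0) (c : P3) (s : ℝ) (y : P3) :
    th L0 y ≤ (L0 + 3) ^ 3 * envP c s y := by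
  have := th_le_psi hL 0 y
  rw [sub_zero] at this
  refine this.trans (mul_le_mul_of_nonneg_left ?_ (by positivity))
  exact Finset.prod_le_prod (fun k _ => psi_nonneg _ _ _)
    fun k _ => le_add_of_nonneg_left (psi_nonneg _ _ _)

theorem lineOK_ks {s h L0 : ℝ} (hs : 0 < s) (hs1 : s ≤ 1) (hh : h ≤ s) (hL : 0 ≤ L0) (x : P3) :
    LineOK (fun y => ks s (x - y)) h L0 fun y =>
      (2 * 24 ^ 5 * (L0 + 3) ^ 3 / s ^ 2) * envP x s y := by
  intro k y
  set c := √((x (a1 k) - y (a1 k)) ^ 2 + (x (a2 k) - y (a2 k)) ^ 2 + s ^ 2) with hc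
  have hsc : s ≤ c := Real.le_sqrt_of_sq_le (by
    nlinarith [sq_nonneg (x (a1 k) - y (a1 k)), sq_nonneg (x (a2 k) - y (a2 k))])
  have hc0 : 0 < c := hs.trans_le hsc
  set r := ks s (x - y) with hr
  have hr' : r = psi (x k) c (y k) := by
    rw [hr, ← ks_line, Function.update_eq_self]
  have r0 : 0 < r := by rw [hr']; exact psi_pos hc0 _ _
  have r1 : r ≤ 1 / s := (ks_le_psi hs x y k).trans (psi_le_inv hs _ _)
  have hS := sm_psi (s := c) (d := 1 / (3 * r)) (by positivity) (x k)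
    (S := Icc (y k - 2 * h) (y k + 2 * h)) fun t ht => by
      have h1 := psi_comp hc0 (x k) (t := t) (t' := y k)
        (by rw [abs_le]; constructor <;> linarith [ht.1, ht.2])
      rw [← hr'] at h1
      unfold psi at h1
      have h2 : 0 < √((t - x k) ^ 2 + c ^ 2) := by positivity
      rw [div_le_iff₀ h2] at h1
      rw [div_le_iff₀ (by positivity)]
      linarith
  have e1 : 1 / (1 / (3 * r)) = 3 * r := by field_simp
  have e2 : 4 / (1 / (3 * r)) = 12 * r := by field_simp; norm_num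
  rw [e1, e2] at hS
  refine ⟨3 * r, 12 * r, by positivity, by simp only [ks_line]; exact hS, ?_⟩
  have hθ := th_le_envP hL x s y
  have h3 := ks_cube_le hs x y
  rw [← hr] at h3
  have hE := envP_nonneg x s y
  have hL3 : 1 ≤ (L0 + 3) ^ 3 := one_le_pow₀ (by linarith)
  have r2 : r ^ 2 ≤ 1 / s ^ 2 := by
    rw [← one_pow 2, ← div_pow]; gcongr
  have r3 : r ≤ 1 / s ^ 2 := r1.trans (one_div_le_one_div_of_le (by positivity) (by nlinarith))
  have h4 : (2 * (12 * r) + 12 * th L0 y) ^ 4 ≤ 8 * (24 ^ 4 * r ^ 4 + 24 ^ 4 * th L0 y) := by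
    rcases th_cases L0 y with h | h
    · rw [h]
      have : 0 ≤ r ^ 4 := by positivity
      nlinarith
    · rw [h]
      have h5 := add_pow_le (by positivity : 0 ≤ 2 * (12 * r)) (by positivity : (0 : ℝ) ≤ 12 * 1) 4
      have : 0 ≤ r ^ 4 := by positivity
      nlinarith
  have hθ0 := th_nonneg L0 y
  calc 3 * r * (2 * (12 * r) + 12 * th L0 y) ^ 4
      ≤ 3 * r * (8 * (24 ^ 4 * r ^ 4 + 24 ^ 4 * th L0 y)) := by gcongr
    _ = 24 ^ 5 * (r ^ 2 * (1 * r ^ 3) + r * th L0 y) := by ring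
    _ ≤ 24 ^ 5 * (1 / s ^ 2 * ((L0 + 3) ^ 3 * envP x s y) +
        1 / s ^ 2 * ((L0 + 3) ^ 3 * envP x s y)) := by gcongr
    _ = _ := by ring

theorem lipL_ks {s : ℝ} (hs : 0 < s) (x : P3) : LipL (fun y => ks s (x - y)) (4 / s ^ 2) := by
  intro k y t t'
  simp only [ks_line]
  have hS := sm_psi (s := √((x (a1 k) - y (a1 k)) ^ 2 + (x (a2 k) - y (a2 k)) ^ 2 + s ^ 2))
    hs (x k) (S := univ) fun t _ => Real.le_sqrt_of_sq_le (by
      rw [Real.sq_sqrt (by positivity)]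
      nlinarith [sq_nonneg (x (a1 k) - y (a1 k)), sq_nonneg (x (a2 k) - y (a2 k)),
        sq_nonneg (t - x k)])
  refine (hS.lip t t').trans_eq ?_
  field_simp

/-! ### Translated test functions -/

theorem update_add' (y t : P3) (k : Fin 3) (τ : ℝ) :
    Function.update y k τ + t = Function.update (y + t) k (τ + t k) := by
  funext j
  by_cases e : j = k
  · subst e; simp
  · simp [Function.update_of_ne e]

theorem lineOK_w {w : P3 → ℝ} {Cw h L0 : ℝ} (hw : BdM 4 Cw w) (hv : Van (fun _ => L0) w)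
    (hh : h ≤ 1) (hL : 0 ≤ L0) (t : P3) :
    LineOK (fun y => w (y + t)) h L0 fun y => (14 ^ 4 * Cw * (L0 + 3) ^ 3) * envP (-t) 1 y := by
  intro k y
  have hC : 0 ≤ Cw := (abs_nonneg _).trans (hw.2.1 0)
  have h1 := ((sm_line_th hw hv (y + t) k).mono le_rfl (th_nonneg _ _) (th_le_one _ _)).comp_add
    (t k)
  refine ⟨Cw * th L0 (y + t), 1, zero_le_one, ?_, ?_⟩
  · simp only [update_add']
    refine h1.mono_set fun τ hτ => ?_
    simp only [mem_ofPred_eq, mem_Icc, Pi.add_apply]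
    constructor <;> linarith [hτ.1, hτ.2]
  · have h2 := th_le_psi hL (-t) y
    rw [sub_neg_eq_add] at h2
    have h3 : ∏ k, psi ((-t) k) 1 (y k) ≤ envP (-t) 1 y :=
      Finset.prod_le_prod (fun k _ => psi_nonneg _ _ _)
        fun k _ => le_add_of_nonneg_right (psi_nonneg _ _ _)
    have h4 := th_le_one L0 y
    have h5 := th_nonneg L0 y
    have h6 := th_nonneg L0 (y + t)
    have hE := envP_nonneg (-t) 1 y
    have h7 : th L0 (y + t) ≤ (L0 + 3) ^ 3 * envP (-t) 1 y :=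
      h2.trans (mul_le_mul_of_nonneg_left h3 (by positivity))
    calc Cw * th L0 (y + t) * (2 * 1 + 12 * th L0 y) ^ 4
        ≤ Cw * ((L0 + 3) ^ 3 * envP (-t) 1 y) * (2 * 1 + 12 * 1) ^ 4 := by gcongr
      _ = _ := by ring

theorem lipL_w {w : P3 → ℝ} {Cw : ℝ} (hw : BdM 4 Cw w) (t : P3) :
    LipL (fun y => w (y + t)) Cw := by
  intro k y τ τ'
  simp only [update_add']
  have := lip_of_deriv (hasDerivAt_line hw.1 (y + t) k) (fun τ => (hw.2.2 k).2.1 _)
    (τ + t k) (τ' + t k)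
  simpa using this

end

end Vale.Agent.P370Z.DISC
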