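import Vale.Agent.P370Z.DISC.Nodes
import Vale.Agent.P363.R.H10.Calc
import Vale.Agent.P363.R.Sob.S16
import Vale.Agent.P363.R.Sob.Chain

/-! The singular remainder of the kernel; Hardy's inequality near the nodes. -/

namespace Vale.Agent.P370Z.DISC

open MeasureTheory Set

noncomputable section

theorem nrm_eq (t : P3) : nrm t = ‖(WithLp.toLp 2 t : EuclideanSpace ℝ (Fin 3))‖ := by
  rw [EuclideanSpace.norm_eq]; simp [nrm]

theorem nrm_nonneg (t : P3) : 0 ≤ nrm t := Real.sqrt_nonneg _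

theorem nrm_sq (t : P3) : nrm t ^ 2 = ∑ k, t k ^ 2 := Real.sq_sqrt (by positivity)

theorem continuous_nrm : Continuous nrm := by unfold nrm; fun_prop

theorem abs_le_nrm (t : P3) (k : Fin 3) : |t k| ≤ nrm t :=
  Real.le_sqrt_of_sq_le (by
    rw [sq_abs]
    exact Finset.single_le_sum (f := fun k => t k ^ 2) (fun _ _ => sq_nonneg _) (Finset.mem_univ k))

theorem norm_le_nrm (t : P3) : ‖t‖ ≤ nrm t :=
  (pi_norm_le_iff_of_nonneg (nrm_nonneg t)).2 fun k => abs_le_nrm t k

theorem nrm_pos {t : P3} (h : t ≠ 0) : 0 < nrm t := (norm_pos_iff.2 h).trans_le (norm_le_nrm t)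

theorem nrm_le {t : P3} {R : ℝ} (h : ∀ k, |t k| ≤ R) : nrm t ≤ 2 * R := by
  have hR : 0 ≤ R := (abs_nonneg _).trans (h 0)
  refine Real.sqrt_le_iff.2 ⟨by positivity, ?_⟩
  have key : ∀ k, t k ^ 2 ≤ R ^ 2 := fun k => sq_le_sq' (abs_le.1 (h k)).1 (abs_le.1 (h k)).2
  rw [Fin.sum_univ_three]
  nlinarith [key 0, key 1, key 2]

theorem integral_nrm (F : ℝ → ℝ) :
    ∫ t : P3, F (nrm t) = 4 * Real.pi * ∫ r in Ioi (0 : ℝ), r ^ 2 * F r := by
  rw [← P363.R.H10.integral_radial,
    ← (PiLp.volume_preserving_toLp (Fin 3)).integral_comp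
      (MeasurableEquiv.toLp 2 (Fin 3 → ℝ)).measurableEmbedding]
  simp only [nrm_eq]

theorem integrable_nrm {F : ℝ → ℝ} (h : IntegrableOn (fun r => r ^ 2 * F r) (Ioi 0)) :
    Integrable fun t : P3 => F (nrm t) := by
  have := ((PiLp.volume_preserving_toLp (Fin 3)).integrable_comp_emb
    (MeasurableEquiv.toLp 2 (Fin 3 → ℝ)).measurableEmbedding).2
    (P363.R.H10.integrable_radial.2 h)
  simpa only [nrm_eq, Function.comp_def] using this

/-- the remainder of the kernel -/
def rem (s : ℝ) (t : P3) : ℝ := 1 / nrm t - ks s t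

/-- radial bound for the remainder, cut off at the radius `R` -/
def rb (s R r : ℝ) : ℝ := if r ≤ R then s ^ 2 / (r * (r ^ 2 + s ^ 2)) else 0

theorem measurable_inv_nrm : Measurable fun t : P3 => 1 / nrm t :=
  measurable_const.div continuous_nrm.measurable

theorem measurable_rem {s : ℝ} (hs : 0 < s) : Measurable (rem s) :=
  measurable_inv_nrm.sub (continuous_ks hs).measurable

theorem ks_eq (s : ℝ) (t : P3) : ks s t = 1 / √(nrm t ^ 2 + s ^ 2) := by rw [nrm_sq]; rfl

theorem rem_bounds {s : ℝ} (hs : 0 < s) {t : P3} (ht : t ≠ 0) :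
    0 ≤ rem s t ∧ rem s t ≤ 1 / nrm t ∧
      rem s t ≤ s ^ 2 / (nrm t * (nrm t ^ 2 + s ^ 2)) := by
  have hr := nrm_pos ht
  rw [rem, ks_eq]
  set r := nrm t
  set d := √(r ^ 2 + s ^ 2) with hd
  have d2 : d ^ 2 = r ^ 2 + s ^ 2 := Real.sq_sqrt (by positivity)
  have d0 : 0 < d := by positivity
  have rd : r ≤ d := Real.le_sqrt_of_sq_le (by nlinarith)
  refine ⟨by linarith [one_div_le_one_div_of_le hr rd], by linarith [one_div_pos.2 d0], ?_⟩
  rw [← d2, div_sub_div _ _ hr.ne' d0.ne', div_le_div_iff₀ (by positivity) (by positivity)]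
  have e : s ^ 2 = (d - r) * (d + r) := by linarith
  rw [e]
  have : 0 ≤ (d - r) * r * (r * d) := by
    have : 0 ≤ d - r := by linarith
    positivity
  nlinarith

theorem rb_nonneg (s R : ℝ) {r : ℝ} (hr : 0 ≤ r) : 0 ≤ rb s R r := by
  unfold rb; split_ifs <;> positivity

theorem rb_eqOn {s : ℝ} (hs : 0 < s) (R : ℝ) : EqOn (fun r => r ^ 2 * rb s R r)
    ((Iic R).indicator fun r => s ^ 2 * (r / (r ^ 2 + s ^ 2))) (Ioi 0) := by
  intro r hr
  have hr' : 0 < r := hr
  simp only [rb, indicator, mem_Iic]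
  split_ifs
  · field_simp
  · simp

theorem cont_aux {s : ℝ} (hs : 0 < s) : Continuous fun r : ℝ => s ^ 2 * (r / (r ^ 2 + s ^ 2)) :=
  continuous_const.mul (continuous_id.div (by fun_prop) fun r => by positivity)

theorem integrable_rb {s : ℝ} (hs : 0 < s) (R : ℝ) : Integrable fun t : P3 => rb s R (nrm t) := by
  refine integrable_nrm ((integrableOn_congr_fun (rb_eqOn hs R) measurableSet_Ioi).2 ?_)
  rw [integrableOn_indicator_iff measurableSet_Iic, Iic_inter_Ioi]
  exact (cont_aux hs).integrableOn_Icc.mono_set Ioc_subset_Icc_self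

theorem integral_rb {s R : ℝ} (hs : 0 < s) (hR : 0 ≤ R) :
    ∫ t : P3, rb s R (nrm t) ≤ 7 * s ^ 2 * Real.log (1 + R ^ 2 / s ^ 2) := by
  rw [integral_nrm, setIntegral_congr_fun measurableSet_Ioi (rb_eqOn hs R),
    setIntegral_indicator measurableSet_Iic, Ioi_inter_Iic, ← intervalIntegral.integral_of_le hR,
    intervalIntegral.integral_eq_sub_of_hasDerivAt
      (f := fun r => s ^ 2 / 2 * Real.log (r ^ 2 + s ^ 2)) (fun r _ => ?_)
      ((cont_aux hs).intervalIntegrable _ _)]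
  · have e : 1 + R ^ 2 / s ^ 2 = (R ^ 2 + s ^ 2) / (0 ^ 2 + s ^ 2) := by field_simp; ring
    have h0 : 0 ≤ Real.log (1 + R ^ 2 / s ^ 2) := Real.log_nonneg (by
      have : 0 ≤ R ^ 2 / s ^ 2 := by positivity
      linarith)
    rw [← mul_sub, ← Real.log_div (by positivity) (by positivity), ← e]
    have := Real.pi_lt_d2
    have h1 : 0 ≤ s ^ 2 * Real.log (1 + R ^ 2 / s ^ 2) := by positivity
    nlinarith
  · have h1 : HasDerivAt (fun r : ℝ => r ^ 2 + s ^ 2) (2 * r) r := by
      simpa using (hasDerivAt_pow 2 r).add_const (s ^ 2)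
    refine HasDerivAt.congr_deriv ((h1.log (by positivity)).const_mul _) ?_
    field_simp

theorem rem_le_rb {s R : ℝ} (hs : 0 < s) (hR : 0 < R) {t : P3} (ht : t ≠ 0) :
    |rem s t| ≤ rb s R (nrm t) + s ^ 2 / R ^ 3 := by
  obtain ⟨h0, _, h2⟩ := rem_bounds hs ht
  have hr := nrm_pos ht
  rw [abs_of_nonneg h0]
  unfold rb
  split_ifs with h
  · have : 0 ≤ s ^ 2 / R ^ 3 := by positivity
    linarith
  · rw [zero_add]
    refine h2.trans (div_le_div_of_nonneg_left (by positivity) (by positivity) ?_)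
    push Not at h
    calc R ^ 3 ≤ nrm t ^ 3 := by gcongr
      _ = nrm t * nrm t ^ 2 := by ring
      _ ≤ _ := by gcongr; nlinarith

theorem ae_sub_ne (x : P3) : ∀ᵐ y : P3, x - y ≠ 0 := by
  have : ∀ᵐ y : P3, y ≠ x := by
    rw [ae_iff]; simp
  filter_upwards [this] with y hy using sub_ne_zero.2 hy.symm

theorem ae_sub_ne' (y : P3) : ∀ᵐ x : P3, x - y ≠ 0 := by
  filter_upwards [ae_sub_ne y] with x hx using sub_ne_zero.2 (sub_ne_zero.1 hx).symm

theorem volume_cube {L : Fin 3 → ℝ} (hL : ∀ k, 0 ≤ L k) :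
    volume.real (Icc (fun k => -L k) L) = ∏ k, 2 * L k := by
  rw [Measure.real, Real.volume_Icc_pi_toReal (fun k => by linarith [hL k])]
  exact Finset.prod_congr rfl fun k _ => by ring

theorem volume_box {l : Fin 3 → ℕ} {Lm : ℕ} (h : ∀ k, l k ≤ Lm) :
    volume.real (box l) ≤ 8 * (Lm : ℝ) ^ 3 := by
  have e : box l = Icc (fun k => -(l k : ℝ)) (fun k => (l k : ℝ)) := by
    ext x
    simp only [box, mem_ofPred_eq, mem_Icc, Pi.le_def, abs_le, forall_and]
  rw [e, volume_cube (fun k => Nat.cast_nonneg _), Fin.prod_univ_three]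
  calc 2 * (l 0 : ℝ) * (2 * l 1) * (2 * l 2) ≤ 2 * Lm * (2 * Lm) * (2 * Lm) := by
        gcongr <;> apply h
    _ = _ := by ring

/-- the continuous charge applied to the remainder -/
theorem box_rem {a : P3 → ℝ} {C s : ℝ} (ha : Measurable a) (hC : ∀ y, |a y| ≤ C) (hs : 0 < s)
    {l : Fin 3 → ℕ} {Lm : ℕ} (hL : 1 ≤ Lm) (h : ∀ k, l k ≤ Lm) (x : P3) :
    IntegrableOn (fun y => a y * rem s (x - y)) (box l) ∧
    |∫ y in box l, a y * rem s (x - y)| ≤
      C * s ^ 2 * (7 * Real.log (1 + (Lm : ℝ) ^ 2 / s ^ 2) + 8) := by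
  have hC0 : 0 ≤ C := (abs_nonneg _).trans (hC 0)
  have hL' : (0 : ℝ) < Lm := by positivity
  have hfin : volume (box l) ≠ ⊤ := (isCompact_box l).measure_lt_top.ne
  have i1 : Integrable fun y : P3 => rb s Lm (nrm (x - y)) :=
    (integrable_rb hs Lm).comp_sub_left x
  have i2 : IntegrableOn (fun y : P3 => C * (rb s Lm (nrm (x - y)) + s ^ 2 / (Lm : ℝ) ^ 3))
      (box l) := (i1.integrableOn.add (integrableOn_const hfin)).const_mul C
  have hb : ∀ᵐ y ∂(volume.restrict (box l)), ‖a y * rem s (x - y)‖ ≤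
      C * (rb s Lm (nrm (x - y)) + s ^ 2 / (Lm : ℝ) ^ 3) := by
    refine ae_restrict_of_ae ?_
    filter_upwards [ae_sub_ne x] with y hy
    exact abs_mul_le' (hC y) (rem_le_rb hs hL' hy)
  refine ⟨i2.mono' (ha.mul ((measurable_rem hs).comp
    (measurable_const.sub measurable_id))).aestronglyMeasurable hb, ?_⟩
  refine (norm_integral_le_of_norm_le i2 hb).trans ?_
  rw [integral_const_mul, integral_add i1.integrableOn (integrableOn_const hfin),
    setIntegral_const, smul_eq_mul]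
  have h1 : ∫ y in box l, rb s Lm (nrm (x - y)) ≤ 7 * s ^ 2 * Real.log (1 + (Lm : ℝ) ^ 2 / s ^ 2) := by
    refine (setIntegral_le_integral i1 (Filter.Eventually.of_forall fun y =>
      rb_nonneg _ _ (nrm_nonneg _))).trans ?_
    rw [integral_sub_left_eq_self (fun t => rb s Lm (nrm t)) volume x]
    exact integral_rb hs hL'.le
  have h2 : volume.real (box l) * (s ^ 2 / (Lm : ℝ) ^ 3) ≤ 8 * s ^ 2 := by
    calc _ ≤ 8 * (Lm : ℝ) ^ 3 * (s ^ 2 / (Lm : ℝ) ^ 3) := by gcongr; exact volume_box h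
      _ = _ := by field_simp
  calc C * _ ≤ C * (7 * s ^ 2 * Real.log (1 + (Lm : ℝ) ^ 2 / s ^ 2) + 8 * s ^ 2) := by gcongr
    _ = _ := by ring

/-! ### Hardy's inequality -/

theorem c1c_pd_cont {f : P3 → ℝ} (hf : C1c f) (k : Fin 3) : Continuous (pd k f) :=
  (hf.1.continuous_fderiv (by norm_num)).clm_apply continuous_const

theorem c1c_pd_supp {f : P3 → ℝ} (hf : C1c f) (k : Fin 3) : HasCompactSupport (pd k f) :=
  hf.2.fderiv_apply (𝕜 := ℝ) _

theorem sq_integrable {f : P3 → ℝ} (hc : Continuous f) (hs : HasCompactSupport f) :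
    Integrable fun x => f x ^ 2 :=
  (hc.pow 2).integrable_of_hasCompactSupport (by
    simp only [pow_two]; exact hs.mul_right)

theorem hardy_c1c {f : P3 → ℝ} (hf : C1c f) (a : P3) :
    Integrable (fun x => f x ^ 2 / nrm (x - a) ^ 2) ∧
      ∫ x, f x ^ 2 / nrm (x - a) ^ 2 ≤ 4 * ∑ k, ∫ x, pd k f x ^ 2 := by
  have := P363.R.Sob.hardy (μ := (volume : Measure P3)) (F := ℝ)
    (PiLp.continuousLinearEquiv 2 ℝ (fun _ : Fin 3 => ℝ)).symm.toContinuousLinearMap
    (WithLp.toLp 2 a) (fun k => Pi.single k 1) (fun k => rfl) (f := f) (g := fun k => pd k f)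
    (hf.1.continuous.memLp_of_hasCompactSupport hf.2)
    (fun k => (c1c_pd_cont hf k).memLp_of_hasCompactSupport (c1c_pd_supp hf k))
    (fun k => P363.R.Sob.isWD_of_contDiff hf.1)
  simp only [Real.norm_eq_abs, sq_abs] at this
  simp only [nrm_eq]
  exact this

/-- the standard cutoff -/
def chi0 : ContDiffBump (0 : P3) := ⟨1, 2, one_pos, one_lt_two⟩

/-- the cutoff at the point `a` and the scale `r` -/
def chi (a : P3) (r : ℝ) (x : P3) : ℝ := chi0 (r⁻¹ • (x - a))

theorem exists_chi0_bound : ∃ K : ℝ, 1 ≤ K ∧ ∀ k x, |pd k chi0 x| ≤ K := by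
  have hc : Continuous (fderiv ℝ (chi0 : P3 → ℝ)) :=
    (chi0.contDiff (n := 1)).continuous_fderiv (by norm_num)
  obtain ⟨K, hK⟩ := hc.bounded_above_of_compact_support (chi0.hasCompactSupport.fderiv (𝕜 := ℝ))
  refine ⟨max K 1, le_max_right _ _, fun k x => ?_⟩
  refine le_trans ?_ (le_max_left _ _)
  calc |pd k chi0 x| ≤ ‖fderiv ℝ chi0 x‖ * ‖(Pi.single k 1 : P3)‖ :=
        (fderiv ℝ chi0 x).le_opNorm _
    _ ≤ K := by rw [Pi.norm_single, norm_one, mul_one]; exact hK x

theorem chi_contDiff (a : P3) (r : ℝ) : ContDiff ℝ 1 (chi a r) :=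
  chi0.contDiff.comp ((contDiff_id.sub contDiff_const).const_smul r⁻¹)

theorem chi_one {a x : P3} {r : ℝ} (hr : 0 < r) (h : ‖x - a‖ ≤ r) : chi a r x = 1 := by
  refine chi0.one_of_mem_closedBall ?_
  rw [mem_closedBall_zero_iff, norm_smul, norm_inv, Real.norm_eq_abs, abs_of_pos hr,
    inv_mul_le_iff₀ hr]
  simpa [chi0] using h

theorem chi_zero {a x : P3} {r : ℝ} (hr : 0 < r) (h : 2 * r ≤ ‖x - a‖) : chi a r x = 0 := by
  refine chi0.zero_of_le_dist ?_
  rw [dist_zero_right, norm_smul, norm_inv, Real.norm_eq_abs, abs_of_pos hr, le_inv_mul_iff₀ hr]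
  simpa [chi0, mul_comm] using h

theorem chi_abs (a : P3) (r : ℝ) (x : P3) : |chi a r x| ≤ 1 := by
  rw [chi, abs_of_nonneg chi0.nonneg]; exact chi0.le_one

theorem chi_c1c (a : P3) {r : ℝ} (hr : 0 < r) : C1c (chi a r) := by
  refine ⟨chi_contDiff a r, HasCompactSupport.intro (isCompact_closedBall a (2 * r)) fun x hx => ?_⟩
  rw [mem_closedBall_iff_norm, not_le] at hx
  exact chi_zero hr hx.le

theorem pd_chi (a : P3) (r : ℝ) (k : Fin 3) (x : P3) :
    pd k (chi a r) x = r⁻¹ * pd k chi0 (r⁻¹ • (x - a)) := by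
  have h1 : HasFDerivAt (fun x : P3 => r⁻¹ • (x - a)) (r⁻¹ • ContinuousLinearMap.id ℝ P3) x :=
    ((hasFDerivAt_id x).sub_const a).const_smul r⁻¹
  have h2 := (((chi0.contDiff (n := 1)).differentiable (by norm_num)) (r⁻¹ • (x - a))).hasFDerivAt.comp x h1
  have h3 : fderiv ℝ (chi a r) x = _ := h2.fderiv
  simp only [pd, h3]
  simp

theorem pd_chi_zero {a x : P3} {r : ℝ} (hr : 0 < r) (h : 2 * r < ‖x - a‖) (k : Fin 3) :
    pd k (chi a r) x = 0 := by
  have ho : IsOpen {z : P3 | 2 * r < ‖z - a‖} := isOpen_lt continuous_const (by fun_prop)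
  have he : chi a r =ᶠ[nhds x] fun _ => 0 := by
    filter_upwards [ho.mem_nhds h] with z hz using chi_zero hr (le_of_lt hz)
  simp [pd, he.fderiv_eq]

/-- Hardy's inequality near a point -/
theorem hardy_loc {K : ℝ} (hK : ∀ k x, |pd k chi0 x| ≤ K) {u : P3 → ℝ} (hu : C1c u) (a : P3)
    {r : ℝ} (hr : 0 < r) :
    Integrable (fun x => (Metric.closedBall a r).indicator (fun x => 1 / nrm (x - a) ^ 2) x *
      u x ^ 2) ∧
    ∫ x, (Metric.closedBall a r).indicator (fun x => 1 / nrm (x - a) ^ 2) x * u x ^ 2 ≤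
      ∫ x, (Metric.closedBall a (2 * r)).indicator 1 x *
        (8 * ∑ k, pd k u x ^ 2 + 24 * (K / r) ^ 2 * u x ^ 2) := by
  have hc := chi_c1c a hr
  have hf : C1c fun x => chi a r x * u x := ⟨hc.1.mul hu.1, hc.2.mul_right⟩
  obtain ⟨h1, h2⟩ := hardy_c1c hf a
  have hle : ∀ x, (Metric.closedBall a r).indicator (fun x => 1 / nrm (x - a) ^ 2) x * u x ^ 2 ≤
      (chi a r x * u x) ^ 2 / nrm (x - a) ^ 2 := by
    intro x
    by_cases hx : x ∈ Metric.closedBall a r
    · rw [indicator_of_mem hx, chi_one hr (mem_closedBall_iff_norm.1 hx), one_mul,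
        one_div_mul_eq_div]
    · rw [indicator_of_notMem hx, zero_mul]; positivity
  have hnn : ∀ x, 0 ≤ (Metric.closedBall a r).indicator (fun x => 1 / nrm (x - a) ^ 2) x *
      u x ^ 2 := fun x => mul_nonneg (indicator_nonneg (fun _ _ => by positivity) x) (sq_nonneg _)
  have hm : Measurable fun x => (Metric.closedBall a r).indicator
      (fun x => 1 / nrm (x - a) ^ 2) x * u x ^ 2 :=
    ((measurable_const.div ((continuous_nrm.comp (continuous_id.sub continuous_const)).pow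
      2).measurable).indicator measurableSet_closedBall).mul (hu.1.continuous.pow 2).measurable
  have i1 := h1.mono' hm.aestronglyMeasurable (Filter.Eventually.of_forall fun x => by
    rw [Real.norm_eq_abs, abs_of_nonneg (hnn x)]; exact hle x)
  refine ⟨i1, (integral_mono i1 h1 hle).trans (h2.trans ?_)⟩
  have iG : Integrable fun x => 8 * ∑ k, pd k u x ^ 2 + 24 * (K / r) ^ 2 * u x ^ 2 :=
    ((integrable_finsetSum _ fun k _ =>
      sq_integrable (c1c_pd_cont hu k) (c1c_pd_supp hu k)).const_mul 8).add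
      ((sq_integrable hu.1.continuous hu.2).const_mul _)
  rw [← integral_finsetSum _ fun k _ => sq_integrable (c1c_pd_cont hf k) (c1c_pd_supp hf k),
    ← integral_const_mul]
  refine integral_mono ((integrable_finsetSum _ fun k _ =>
    sq_integrable (c1c_pd_cont hf k) (c1c_pd_supp hf k)).const_mul 4)
    (iG.bdd_mul (c := 1) (measurable_one.indicator measurableSet_closedBall).aestronglyMeasurable
      (Filter.Eventually.of_forall fun x => by
        by_cases hx : x ∈ Metric.closedBall a (2 * r) <;> simp [hx])) fun x => ?_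
  have hp : ∀ k, pd k (fun x => chi a r x * u x) x =
      chi a r x * pd k u x + u x * pd k (chi a r) x := fun k => by
    simp only [pd]
    rw [fderiv_fun_mul (hc.1.differentiable (by norm_num) x) (hu.1.differentiable (by norm_num) x)]
    simp
  simp only [hp]
  by_cases hx : x ∈ Metric.closedBall a (2 * r)
  · rw [indicator_of_mem hx, Pi.one_apply, one_mul]
    have key : ∀ k, (chi a r x * pd k u x + u x * pd k (chi a r) x) ^ 2 ≤
        2 * pd k u x ^ 2 + 2 * ((K / r) ^ 2 * u x ^ 2) := fun k => by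
      have b1 : chi a r x ^ 2 ≤ 1 := by
        rw [← sq_abs]; exact pow_le_one₀ (abs_nonneg _) (chi_abs a r x)
      have b2 : pd k (chi a r) x ^ 2 ≤ (K / r) ^ 2 := by
        rw [← sq_abs, pd_chi, abs_mul, abs_of_pos (inv_pos.2 hr), ← div_eq_inv_mul]
        gcongr
        exact hK _ _
      have b3 : (chi a r x * pd k u x) ^ 2 ≤ pd k u x ^ 2 := by
        rw [mul_pow]; nlinarith [sq_nonneg (pd k u x)]
      have b4 : (u x * pd k (chi a r) x) ^ 2 ≤ (K / r) ^ 2 * u x ^ 2 := by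
        rw [mul_pow]; nlinarith [sq_nonneg (u x)]
      nlinarith [sq_nonneg (chi a r x * pd k u x - u x * pd k (chi a r) x)]
    simp only [Fin.sum_univ_three]
    linarith [key 0, key 1, key 2]
  · rw [indicator_of_notMem hx, zero_mul]
    rw [mem_closedBall_iff_norm, not_le] at hx
    simp [chi_zero hr hx.le, pd_chi_zero hr hx]

end

end Vale.Agent.P370Z.DISC
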