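import Vale.Agent.P370Z.DISC.Sing

/-! The pointwise bound of the discretization error and its form bound. -/

namespace Vale.Agent.P370Z.DISC

open MeasureTheory Set

noncomputable section

/-- the continuous density -/
def dens (ρ : ℕ) (F : P3 → ℝ) (y : P3) : ℝ := 3 * (ρ : ℝ) + ∑ i, pd i (pd i F) y

theorem muD_eq (ρ : ℕ) (l : Fin 3 → ℕ) (F g : P3 → ℝ) :
    muD ρ l F g = ∫ y in box l, dens ρ F y * g y := rfl

section

variable {F : P3 → ℝ} {CF L0 : ℝ} {ρ : ℕ} {l : Fin 3 → ℕ} {X : Fin 3 → ℝ → ℝ → ℝ → ℝ}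
  {m Lm : ℕ} {y : Fin 3 → (Fin 3 → ℕ) → P3} {δ M : ℝ}

theorem Dat.cont_dens (D : Dat F CF ρ L0 l X) : Continuous (dens ρ F) :=
  continuous_const.add (continuous_finsetSum _ fun i _ => bdm_cont (D.bdA i))

theorem Dat.abs_dens (D : Dat F CF ρ L0 l X) (z : P3) : |dens ρ F z| ≤ 5 * ρ := by
  have h0 := abs_le.1 ((D.bdA 0).2.1 z)
  have h1 := abs_le.1 ((D.bdA 1).2.1 z)
  have h2 := abs_le.1 ((D.bdA 2).2.1 z)
  have := D.rho
  have := D.cf
  unfold dens
  rw [Fin.sum_univ_three, abs_le]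
  constructor <;> linarith [h0.1, h0.2, h1.1, h1.2, h2.1, h2.2]

theorem measurable_muD (D : Dat F CF ρ L0 l X) {κ : P3 → ℝ} (hκ : Measurable κ) :
    Measurable fun x => muD ρ l F fun t => κ (x - t) := by
  have h : Measurable fun p : P3 × P3 => dens ρ F p.2 * κ (p.1 - p.2) :=
    (D.cont_dens.measurable.comp measurable_snd).mul (hκ.comp (measurable_fst.sub measurable_snd))
  exact (h.stronglyMeasurable.integral_prod_right' (ν := volume.restrict (box l))).measurable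

theorem measurable_nuD {κ : P3 → ℝ} (hκ : Measurable κ) :
    Measurable fun x => nuD m ρ l y fun t => κ (x - t) := by
  simp only [nuD_eq]
  exact Finset.measurable_sum _ fun i _ => Finset.measurable_sum _ fun n _ =>
    measurable_const.mul (hκ.comp (measurable_id.sub measurable_const))

theorem measurable_discErr (D : Dat F CF ρ L0 l X) : Measurable (discErr m ρ l F y) :=
  (measurable_muD (κ := fun t => 1 / nrm t) D measurable_inv_nrm).sub
    (measurable_nuD (κ := fun t => 1 / nrm t) measurable_inv_nrm)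

theorem discErr_split (D : Dat F CF ρ L0 l X) (S : Siz m Lm l M) {s : ℝ} (hs : 0 < s) (x : P3) :
    discErr m ρ l F y x =
      ((muD ρ l F fun t => ks s (x - t)) - nuD m ρ l y fun t => ks s (x - t)) +
      ((muD ρ l F fun t => rem s (x - t)) - nuD m ρ l y fun t => rem s (x - t)) := by
  have hL : 1 ≤ Lm := (S.l1 0).trans (S.lL 0)
  have i1 : IntegrableOn (fun t => dens ρ F t * ks s (x - t)) (box l) :=
    (D.cont_dens.mul ((continuous_ks hs).comp
      (continuous_const.sub continuous_id))).continuousOn.integrableOn_compact (isCompact_box l)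
  have i2 := (box_rem D.cont_dens.measurable D.abs_dens hs hL S.lL x).1
  have e1 : (muD ρ l F fun t => 1 / nrm (x - t)) =
      (muD ρ l F fun t => ks s (x - t)) + muD ρ l F fun t => rem s (x - t) := by
    simp only [muD_eq]
    rw [← integral_add i1 i2]
    congr 1
    funext t
    unfold rem
    ring
  have e2 : (nuD m ρ l y fun t => 1 / nrm (x - t)) =
      (nuD m ρ l y fun t => ks s (x - t)) + nuD m ρ l y fun t => rem s (x - t) := by
    simp only [nuD_eq, ← Finset.sum_add_distrib]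
    refine Finset.sum_congr rfl fun i _ => Finset.sum_congr rfl fun n _ => ?_
    unfold rem
    ring
  unfold discErr
  rw [e1, e2]
  ring

/-- the error for the regularised kernel -/
theorem err_ks (D : Dat F CF ρ L0 l X) (S : Siz m Lm l M) (hy : NodesOK m ρ l F y δ) (hδ : 0 ≤ δ)
    (hL0 : 0 ≤ L0) (hL1 : L0 ≤ M) (hδ1 : δ * ((m : ℝ) ^ 4 * (Lm : ℝ) ^ 3) ≤ 1) {s : ℝ}
    (hs : 1 / (m : ℝ) ≤ s) (hs1 : s ≤ 1) (x : P3) :
    |(muD ρ l F fun t => ks s (x - t)) - nuD m ρ l y fun t => ks s (x - t)| ≤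
      10 ^ 15 * ρ * M ^ 6 / (s ^ 2 * (m : ℝ) ^ 4) := by
  have hm : (0 : ℝ) < m := by have := S.m1; positivity
  have hs0 : 0 < s := lt_of_lt_of_le (by positivity) hs
  have hM := S.M2
  have hρ := D.rho_pos
  refine (total D S hy hδ hs hs1 (by positivity) x
    ((continuous_ks hs0).comp (continuous_const.sub continuous_id))
    (lineOK_ks hs0 hs1 hs hL0 x) (by positivity) (lipL_ks hs0 x)).trans ?_
  have h1 : (L0 + 3) ^ 3 ≤ (3 * M) ^ 3 := by gcongr; linarith
  have h2 : (1 : ℝ) ≤ M ^ 6 := one_le_pow₀ (by linarith)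
  have h3 : (Lm : ℝ) ^ 3 * δ ≤ M ^ 6 / (m : ℝ) ^ 4 := by
    rw [le_div_iff₀ (by positivity)]; linarith
  calc 156 * (ρ : ℝ) * (2 * 24 ^ 5 * (L0 + 3) ^ 3 / s ^ 2) * (14 * M) ^ 3 / (m : ℝ) ^ 4 +
        144 * ρ * (Lm : ℝ) ^ 3 * (4 / s ^ 2) * δ
      = 156 * (ρ : ℝ) * (2 * 24 ^ 5 * (L0 + 3) ^ 3 / s ^ 2) * (14 * M) ^ 3 / (m : ℝ) ^ 4 +
        576 * ρ / s ^ 2 * ((Lm : ℝ) ^ 3 * δ) := by ring
    _ ≤ 156 * (ρ : ℝ) * (2 * 24 ^ 5 * (3 * M) ^ 3 / s ^ 2) * (14 * M) ^ 3 / (m : ℝ) ^ 4 +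
        576 * ρ / s ^ 2 * (M ^ 6 / (m : ℝ) ^ 4) := by gcongr
    _ = (156 * 2 * 24 ^ 5 * 27 * 14 ^ 3 + 576) * (ρ * M ^ 6 / (s ^ 2 * (m : ℝ) ^ 4)) := by
        field_simp; ring
    _ ≤ 10 ^ 15 * (ρ * M ^ 6 / (s ^ 2 * (m : ℝ) ^ 4)) := by gcongr; norm_num
    _ = _ := by ring

theorem log_bound (S : Siz m Lm l M) :
    Real.log (1 + (Lm : ℝ) ^ 2 / (1 / (m : ℝ)) ^ 2) ≤ 3 * M := by
  have hm : (1 : ℝ) ≤ m := by exact_mod_cast S.m1
  have hL : (1 : ℝ) ≤ Lm := by exact_mod_cast (S.l1 0).trans (S.lL 0)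
  have h1 : (1 : ℝ) ≤ m * Lm := by nlinarith
  have e : (Lm : ℝ) ^ 2 / (1 / (m : ℝ)) ^ 2 = (m * Lm) ^ 2 := by field_simp
  have h2 : (1 : ℝ) ≤ (m * Lm) ^ 2 := one_le_pow₀ h1
  rw [e]
  calc Real.log (1 + ((m : ℝ) * Lm) ^ 2) ≤ Real.log (2 * ((m : ℝ) * Lm) ^ 2) :=
        Real.log_le_log (by positivity) (by linarith)
    _ = Real.log 2 + 2 * Real.log (m * Lm) := by
        rw [Real.log_mul (by norm_num) (by positivity), Real.log_pow]; norm_num
    _ ≤ 3 * M := by
        have := Real.log_le_sub_one_of_pos (by norm_num : (0 : ℝ) < 2)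
        linarith [S.log, S.M2]

/-- the singular part near the nodes of the family `i` -/
def sing (m ρ : ℕ) (l : Fin 3 → ℕ) (y : Fin 3 → (Fin 3 → ℕ) → P3) (i : Fin 3) (x : P3) : ℝ :=
  ∑ n ∈ nodes m l, zz m ρ n *
    (Metric.closedBall (y i n) (1 / (30 * (m : ℝ)))).indicator (fun x => 1 / nrm (x - y i n)) x

theorem rem_node (hm : 1 ≤ m) {x a : P3} (hx : x - a ≠ 0) :
    |rem (1 / m) (x - a)| ≤
      (Metric.closedBall a (1 / (30 * (m : ℝ)))).indicator (fun x => 1 / nrm (x - a)) x +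
        31 / (m : ℝ) ^ 2 * envP x (1 / m) a := by
  have hm' : (0 : ℝ) < m := by positivity
  have hs : (0 : ℝ) < 1 / m := by positivity
  obtain ⟨h0, h1, h2⟩ := rem_bounds hs hx
  have hE := envP_nonneg x (1 / m) a
  rw [abs_of_nonneg h0]
  by_cases hb : x ∈ Metric.closedBall a (1 / (30 * (m : ℝ)))
  · rw [indicator_of_mem hb]
    have : 0 ≤ 31 / (m : ℝ) ^ 2 * envP x (1 / m) a := by positivity
    linarith
  · rw [indicator_of_notMem hb, zero_add]
    rw [mem_closedBall_iff_norm, not_le] at hb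
    have h3 : 1 / (30 * (m : ℝ)) ≤ nrm (x - a) := hb.le.trans (norm_le_nrm _)
    have h4 := ks_cube_le hs x a
    rw [ks_eq] at h4
    set r := nrm (x - a)
    set s := 1 / (m : ℝ) with hsd
    have hr : 0 < r := lt_of_lt_of_le (by positivity) h3
    have h5 : s ≤ 30 * r := by
      have : 1 / (30 * (m : ℝ)) = s / 30 := by rw [hsd]; field_simp
      linarith
    set d := √(r ^ 2 + s ^ 2) with hd
    have d2 : d ^ 2 = r ^ 2 + s ^ 2 := Real.sq_sqrt (by positivity)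
    have d0 : 0 < d := by positivity
    have d1 : d ≤ 31 * r := Real.sqrt_le_iff.2 ⟨by positivity, by nlinarith⟩
    have e : 31 / (m : ℝ) ^ 2 = 31 * s ^ 2 := by rw [hsd]; field_simp
    rw [e]
    calc _ ≤ s ^ 2 / (r * (r ^ 2 + s ^ 2)) := h2
      _ ≤ 31 * s ^ 2 * (1 / d) ^ 3 := by
          rw [← d2, div_le_iff₀ (by positivity)]
          have e2 : 31 * s ^ 2 * (1 / d) ^ 3 * (r * d ^ 2) = s ^ 2 * (31 * r / d) := by
            field_simp
          rw [e2]
          have : 1 ≤ 31 * r / d := by rw [le_div_iff₀ d0]; linarith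
          nlinarith [sq_nonneg s]
      _ ≤ _ := by gcongr

theorem ae_ne_nodes : ∀ᵐ x : P3, ∀ i, ∀ n ∈ nodes m l, x - y i n ≠ 0 := by
  rw [ae_all_iff]
  intro i
  rw [Finset.eventually_all]
  intro n _
  exact ae_sub_ne' _

/-- pointwise bound -/
theorem pointwise (D : Dat F CF ρ L0 l X) (S : Siz m Lm l M) (hy : NodesOK m ρ l F y δ)
    (hδ : 0 ≤ δ) (hL0 : 0 ≤ L0) (hL1 : L0 ≤ M) (hδ1 : δ * ((m : ℝ) ^ 4 * (Lm : ℝ) ^ 3) ≤ 1)
    (hδ2 : δ ≤ 1 / (100 * (m : ℝ))) :
    ∀ᵐ x : P3, |discErr m ρ l F y x| ≤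
      10 ^ 16 * ρ * M ^ 6 / (m : ℝ) ^ 2 + ∑ i, sing m ρ l y i x := by
  have hm : (0 : ℝ) < m := by have := S.m1; positivity
  have hs : (0 : ℝ) < 1 / m := by positivity
  have hM := S.M2
  have hρ := D.rho_pos
  have hL : 1 ≤ Lm := (S.l1 0).trans (S.lL 0)
  filter_upwards [ae_ne_nodes (m := m) (l := l) (y := y)] with x hx
  have h1 := err_ks D S hy hδ hL0 hL1 hδ1 le_rfl S.h_le x
  have h2 := (box_rem D.cont_dens.measurable D.abs_dens hs hL S.lL x).2
  rw [← muD_eq ρ l F fun t => rem (1 / m) (x - t)] at h2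
  have h3 : |nuD m ρ l y fun t => rem (1 / m) (x - t)| ≤
      ∑ i, sing m ρ l y i x + 3 * (31 / (m : ℝ) ^ 2 * 27 * (41 * ρ * (14 * M) ^ 3)) := by
    rw [nuD_eq]
    refine (Finset.abs_sum_le_sum_abs _ _).trans ?_
    have key : ∀ i, |∑ n ∈ nodes m l, zz m ρ n * rem (1 / m) (x - y i n)| ≤
        sing m ρ l y i x + 31 / (m : ℝ) ^ 2 * 27 * (41 * ρ * (14 * M) ^ 3) := by
      intro i
      refine (Finset.abs_sum_le_sum_abs _ _).trans ?_
      have h4 := nuX_env D S le_rfl S.h_le x i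
      rw [nuX_eq S.m1] at h4
      calc ∑ n ∈ nodes m l, |zz m ρ n * rem (1 / m) (x - y i n)|
          ≤ ∑ n ∈ nodes m l, (zz m ρ n * (Metric.closedBall (y i n)
              (1 / (30 * (m : ℝ)))).indicator (fun x => 1 / nrm (x - y i n)) x +
            31 / (m : ℝ) ^ 2 * 27 * (zz m ρ n * envP x (1 / m) (node m l X i n))) := by
            refine Finset.sum_le_sum fun n hn => ?_
            have z0 := zz_nonneg m hρ.le n
            have h5 : envP x (1 / m) (y i n) ≤ 27 * envP x (1 / m) (node m l X i n) := by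
              have key : ∀ k, env (x k) (1 / m) (y i n k) ≤
                  3 * env (x k) (1 / m) (node m l X i n k) := fun k => by
                refine env_comp hs S.h_le _ ((node_near D hy hδ i hn k).trans ?_)
                have : 1 / (100 * (m : ℝ)) ≤ 1 / m :=
                  one_div_le_one_div_of_le hm (by linarith)
                linarith
              refine (Finset.prod_le_prod (fun k _ => env_nonneg _ _ _) fun k _ => key k).trans_eq ?_
              simp only [envP, Fin.prod_univ_three]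
              ring
            rw [abs_mul, abs_of_nonneg z0]
            calc _ ≤ zz m ρ n * ((Metric.closedBall (y i n)
                  (1 / (30 * (m : ℝ)))).indicator (fun x => 1 / nrm (x - y i n)) x +
                  31 / (m : ℝ) ^ 2 * (27 * envP x (1 / m) (node m l X i n))) := by
                  refine mul_le_mul_of_nonneg_left ((rem_node S.m1 (hx i n hn)).trans ?_) z0
                  gcongr
              _ = _ := by ring
        _ ≤ _ := by
            rw [Finset.sum_add_distrib, ← Finset.mul_sum]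
            unfold sing
            gcongr
    refine (Finset.sum_le_sum fun i _ => key i).trans_eq ?_
    rw [Finset.sum_add_distrib]
    simp
  have h4 := log_bound S
  have m1 : M ≤ M ^ 6 := le_self_pow₀ (by linarith) (by norm_num)
  have m3 : M ^ 3 ≤ M ^ 6 := pow_le_pow_right₀ (by linarith) (by norm_num)
  have h5 : 5 * (ρ : ℝ) * (1 / m) ^ 2 *
      (7 * Real.log (1 + (Lm : ℝ) ^ 2 / (1 / (m : ℝ)) ^ 2) + 8) ≤
      125 * (ρ * M ^ 6 / (m : ℝ) ^ 2) := by
    calc _ ≤ 5 * (ρ : ℝ) * (1 / m) ^ 2 * (25 * M ^ 6) := by gcongr; linarith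
      _ = _ := by field_simp; norm_num
  have h6 : 3 * (31 / (m : ℝ) ^ 2 * 27 * (41 * ρ * (14 * M) ^ 3)) ≤
      10 ^ 9 * (ρ * M ^ 6 / (m : ℝ) ^ 2) := by
    calc _ = 3 * 31 * 27 * 41 * 14 ^ 3 * (ρ * M ^ 3 / (m : ℝ) ^ 2) := by ring
      _ ≤ _ := by gcongr; norm_num
  have h7 : 10 ^ 15 * (ρ : ℝ) * M ^ 6 / ((1 / m) ^ 2 * (m : ℝ) ^ 4) =
      10 ^ 15 * (ρ * M ^ 6 / (m : ℝ) ^ 2) := by field_simp
  have h8 : 10 ^ 16 * (ρ : ℝ) * M ^ 6 / (m : ℝ) ^ 2 = 10 ^ 16 * (ρ * M ^ 6 / (m : ℝ) ^ 2) := by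
    ring
  have h9 : 0 ≤ ρ * M ^ 6 / (m : ℝ) ^ 2 := by positivity
  rw [discErr_split D S hs x, h8]
  rw [h7] at h1
  have b1 := abs_le.1 h1
  have b2 := abs_le.1 (h2.trans h5)
  have b3 := abs_le.1 h3
  rw [abs_le]; constructor <;> linarith [b1.1, b1.2, b2.1, b2.2, b3.1, b3.2]

theorem balls_disjoint (D : Dat F CF ρ L0 l X) (hm : 1 ≤ m) (hy : NodesOK m ρ l F y δ)
    (hδ : 0 ≤ δ) (hδ2 : δ ≤ 1 / (100 * (m : ℝ))) (i : Fin 3) {n n' : Fin 3 → ℕ}
    (hn : n ∈ nodes m l) (hn' : n' ∈ nodes m l) {x : P3}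
    (h : x ∈ Metric.closedBall (y i n) (2 * (1 / (30 * (m : ℝ)))))
    (h' : x ∈ Metric.closedBall (y i n') (2 * (1 / (30 * (m : ℝ))))) : n = n' := by
  by_contra hne
  have hm' : (0 : ℝ) < m := by positivity
  obtain ⟨k, hk⟩ := node_sep D hm i hne
  have a1 := abs_le.1 (node_near D hy hδ i hn k)
  have a2 := abs_le.1 (node_near D hy hδ i hn' k)
  have a3 := abs_le.1 ((norm_le_pi_norm (x - y i n) k).trans (mem_closedBall_iff_norm.1 h))
  have a4 := abs_le.1 ((norm_le_pi_norm (x - y i n') k).trans (mem_closedBall_iff_norm.1 h'))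
  simp only [Pi.sub_apply] at a3 a4
  have e1 : 1 / (30 * (m : ℝ)) = 1 / 30 * (1 / m) := by field_simp
  have e2 : 1 / (100 * (m : ℝ)) = 1 / 100 * (1 / m) := by field_simp
  have e3 : 2 / (9 * (m : ℝ)) = 2 / 9 * (1 / m) := by field_simp
  have h0 : (0 : ℝ) < 1 / m := by positivity
  rw [e1] at a3 a4
  rw [e2] at hδ2
  rw [e3, le_abs] at hk
  rcases hk with hk | hk <;> linarith [a1.1, a1.2, a2.1, a2.2, a3.1, a3.2, a4.1, a4.2]

theorem sum_le_of_unique {ι : Type*} {s : Finset ι} {f : ι → ℝ} {P : ι → Prop} {c : ℝ}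
    (hc : 0 ≤ c) (hu : ∀ i ∈ s, ∀ j ∈ s, P i → P j → i = j) (h0 : ∀ i ∈ s, ¬ P i → f i = 0)
    (h1 : ∀ i ∈ s, f i ≤ c) : ∑ i ∈ s, f i ≤ c := by
  by_cases h : ∃ i ∈ s, P i
  · obtain ⟨i, hi, hP⟩ := h
    rw [Finset.sum_eq_single_of_mem i hi fun j hj hne => h0 j hj fun hj' => hne (hu j hj i hi hj' hP)]
    exact h1 i hi
  · push Not at h
    rw [Finset.sum_eq_zero fun i hi => h0 i hi (h i hi)]
    exact hc

theorem sq_sum_le_of_unique {ι : Type*} {s : Finset ι} {f : ι → ℝ} {P : ι → Prop}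
    (hu : ∀ i ∈ s, ∀ j ∈ s, P i → P j → i = j) (h0 : ∀ i ∈ s, ¬ P i → f i = 0) :
    (∑ i ∈ s, f i) ^ 2 ≤ ∑ i ∈ s, f i ^ 2 := by
  by_cases h : ∃ i ∈ s, P i
  · obtain ⟨i, hi, hP⟩ := h
    rw [Finset.sum_eq_single_of_mem i hi fun j hj hne => h0 j hj fun hj' => hne (hu j hj i hi hj' hP)]
    exact Finset.single_le_sum (f := fun i => f i ^ 2) (fun _ _ => sq_nonneg _) hi
  · push Not at h
    rw [Finset.sum_eq_zero fun i hi => h0 i hi (h i hi)]
    simpa using Finset.sum_nonneg fun i _ => sq_nonneg (f i)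

theorem ip_self (u : P3 → ℝ) : ip u u = ∫ x, u x ^ 2 := by simp only [ip, pow_two]

theorem kin_self (u : P3 → ℝ) : 2 * kin1 u u = ∑ k, ∫ x, pd k u x ^ 2 := by
  simp only [kin1, pow_two]; ring

/-- a dominating function for `sing ^ 2 * u ^ 2` -/
theorem sing_form {K : ℝ} (hK1 : 1 ≤ K) (hK : ∀ k x, |pd k chi0 x| ≤ K) (D : Dat F CF ρ L0 l X)
    (hm : 1 ≤ m) (hy : NodesOK m ρ l F y δ) (hδ : 0 ≤ δ) (hδ2 : δ ≤ 1 / (100 * (m : ℝ)))
    (i : Fin 3) {u : P3 → ℝ} (hu : C1c u) :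
    ∃ W : P3 → ℝ, Integrable W ∧ (∀ x, sing m ρ l y i x ^ 2 * u x ^ 2 ≤ W x) ∧
      ∫ x, W x ≤ 21600 * K ^ 2 * ρ ^ 2 / (m : ℝ) ^ 4 * (ip u u + 2 * kin1 u u) := by
  have hm1 : (1 : ℝ) ≤ m := by exact_mod_cast hm
  have hm' : (0 : ℝ) < m := by positivity
  have hρ := D.rho_pos
  have hr : (0 : ℝ) < 1 / (30 * m) := by positivity
  have H := fun n => hardy_loc hK hu (y i n) hr
  have iu := sq_integrable hu.1.continuous hu.2
  have ig := fun k => sq_integrable (c1c_pd_cont hu k) (c1c_pd_supp hu k)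
  have iG : Integrable fun x => 8 * ∑ k, pd k u x ^ 2 + 24 * (K / (1 / (30 * m))) ^ 2 * u x ^ 2 :=
    ((integrable_finsetSum _ fun k _ => ig k).const_mul 8).add (iu.const_mul _)
  refine ⟨fun x => (ρ / (m : ℝ) ^ 3) ^ 2 * ∑ n ∈ nodes m l,
    (Metric.closedBall (y i n) (1 / (30 * (m : ℝ)))).indicator
      (fun x => 1 / nrm (x - y i n) ^ 2) x * u x ^ 2,
    (integrable_finsetSum _ fun n _ => (H n).1).const_mul _, fun x => ?_, ?_⟩
  · have h1 := sq_sum_le_of_unique (s := nodes m l) (f := fun n => zz m ρ n *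
      (Metric.closedBall (y i n) (1 / (30 * (m : ℝ)))).indicator (fun x => 1 / nrm (x - y i n)) x)
      (P := fun n => x ∈ Metric.closedBall (y i n) (1 / (30 * (m : ℝ))))
      (fun n hn n' hn' h h' => balls_disjoint D hm hy hδ hδ2 i hn hn'
        (Metric.closedBall_subset_closedBall (by linarith) h)
        (Metric.closedBall_subset_closedBall (by linarith) h'))
      (fun n _ h => by simp only [indicator_of_notMem h, mul_zero])
    refine (mul_le_mul_of_nonneg_right h1 (sq_nonneg _)).trans ?_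
    beta_reduce
    rw [Finset.sum_mul, Finset.mul_sum]
    refine Finset.sum_le_sum fun n _ => ?_
    by_cases hx : x ∈ Metric.closedBall (y i n) (1 / (30 * (m : ℝ)))
    · rw [indicator_of_mem hx, indicator_of_mem hx, mul_pow, mul_assoc, div_pow 1, one_pow]
      have := zz_nonneg m hρ.le n
      gcongr
      exact zz_le m hρ.le n
    · rw [indicator_of_notMem hx, indicator_of_notMem hx]; simp
  · rw [integral_const_mul, integral_finsetSum _ fun n _ => (H n).1]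
    have ib : ∀ n, Integrable fun x => (Metric.closedBall (y i n)
        (2 * (1 / (30 * (m : ℝ))))).indicator (1 : P3 → ℝ) x *
        (8 * ∑ k, pd k u x ^ 2 + 24 * (K / (1 / (30 * m))) ^ 2 * u x ^ 2) := fun n =>
      iG.bdd_mul (c := 1) (measurable_one.indicator measurableSet_closedBall).aestronglyMeasurable
        (Filter.Eventually.of_forall fun x => by
          by_cases hx : x ∈ Metric.closedBall (y i n) (2 * (1 / (30 * (m : ℝ))))
          · rw [indicator_of_mem hx, Pi.one_apply, norm_one]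
          · rw [indicator_of_notMem hx, norm_zero]; exact zero_le_one)
    have h2 := Finset.sum_le_sum (s := nodes m l) fun n _ => (H n).2
    rw [← integral_finsetSum _ fun n _ => ib n] at h2
    have h3 := h2.trans (integral_mono (integrable_finsetSum _ fun n _ => ib n) iG fun x => by
      refine sum_le_of_unique (P := fun n => x ∈ Metric.closedBall (y i n)
        (2 * (1 / (30 * (m : ℝ))))) (by positivity)
        (fun n hn n' hn' h h' => balls_disjoint D hm hy hδ hδ2 i hn hn' h h')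
        (fun n _ h => by rw [indicator_of_notMem h, zero_mul]) fun n _ => ?_
      by_cases hx : x ∈ Metric.closedBall (y i n) (2 * (1 / (30 * (m : ℝ))))
      · rw [indicator_of_mem hx, Pi.one_apply, one_mul]
      · rw [indicator_of_notMem hx, zero_mul]; positivity)
    rw [integral_add ((integrable_finsetSum _ fun k _ => ig k).const_mul 8) (iu.const_mul _),
      integral_const_mul, integral_const_mul, integral_finsetSum _ fun k _ => ig k, ← kin_self,
      ← ip_self] at h3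
    have p1 : 0 ≤ ip u u := by rw [ip_self]; exact integral_nonneg fun x => sq_nonneg _
    have p2 : 0 ≤ 2 * kin1 u u := by
      rw [kin_self]; exact Finset.sum_nonneg fun k _ => integral_nonneg fun x => sq_nonneg _
    have e : 24 * (K / (1 / (30 * (m : ℝ)))) ^ 2 = 21600 * (K * m) ^ 2 := by field_simp; ring
    have h4 : (1 : ℝ) ≤ (K * m) ^ 2 := one_le_pow₀ (by nlinarith)
    rw [e] at h3
    calc _ ≤ (ρ / (m : ℝ) ^ 3) ^ 2 * (21600 * (K * m) ^ 2 * (ip u u + 2 * kin1 u u)) := by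
          refine mul_le_mul_of_nonneg_left (h3.trans ?_) (by positivity)
          nlinarith
      _ = _ := by field_simp

theorem strong {K : ℝ} (hK1 : 1 ≤ K) (hK : ∀ k x, |pd k chi0 x| ≤ K) (D : Dat F CF ρ L0 l X)
    (S : Siz m Lm l M) (hy : NodesOK m ρ l F y δ) (hδ : 0 ≤ δ) (hL0 : 0 ≤ L0) (hL1 : L0 ≤ M)
    (hδ1 : δ * ((m : ℝ) ^ 4 * (Lm : ℝ) ^ 3) ≤ 1) (hδ2 : δ ≤ 1 / (100 * (m : ℝ))) {u : P3 → ℝ}
    (hu : C1c u) :
    Integrable (fun x => discErr m ρ l F y x ^ 2 * u x ^ 2) ∧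
    ∫ x, discErr m ρ l F y x ^ 2 * u x ^ 2 ≤
      (10 ^ 17 * K * ρ * M ^ 6 / (m : ℝ) ^ 2) ^ 2 * (ip u u + 2 * kin1 u u) := by
  have hm' : (0 : ℝ) < m := by have := S.m1; positivity
  have hM := S.M2
  have hρ := D.rho_pos
  choose W iW bW nW using fun i => sing_form hK1 hK D S.m1 hy hδ hδ2 i hu
  have iu := sq_integrable hu.1.continuous hu.2
  set c := 10 ^ 16 * (ρ : ℝ) * M ^ 6 / (m : ℝ) ^ 2 with hc
  have i01 : Integrable fun x => W 0 x + W 1 x := (iW 0).add (iW 1)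
  have i012 : Integrable fun x => W 0 x + W 1 x + W 2 x := i01.add (iW 2)
  have iT : Integrable fun x => 4 * c ^ 2 * u x ^ 2 + 4 * (W 0 x + W 1 x + W 2 x) :=
    (iu.const_mul _).add (i012.const_mul 4)
  have hb : ∀ᵐ x : P3, discErr m ρ l F y x ^ 2 * u x ^ 2 ≤
      4 * c ^ 2 * u x ^ 2 + 4 * (W 0 x + W 1 x + W 2 x) := by
    filter_upwards [pointwise D S hy hδ hL0 hL1 hδ1 hδ2] with x hx
    rw [← hc, Fin.sum_univ_three] at hx
    have h1 : discErr m ρ l F y x ^ 2 ≤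
        (c + (sing m ρ l y 0 x + sing m ρ l y 1 x + sing m ρ l y 2 x)) ^ 2 :=
      sq_le_sq' (abs_le.1 hx).1 (abs_le.1 hx).2
    have h2 : (c + (sing m ρ l y 0 x + sing m ρ l y 1 x + sing m ρ l y 2 x)) ^ 2 ≤
        4 * (c ^ 2 + sing m ρ l y 0 x ^ 2 + sing m ρ l y 1 x ^ 2 + sing m ρ l y 2 x ^ 2) := by
      nlinarith [sq_nonneg (c - sing m ρ l y 0 x), sq_nonneg (c - sing m ρ l y 1 x),
        sq_nonneg (c - sing m ρ l y 2 x), sq_nonneg (sing m ρ l y 0 x - sing m ρ l y 1 x),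
        sq_nonneg (sing m ρ l y 0 x - sing m ρ l y 2 x),
        sq_nonneg (sing m ρ l y 1 x - sing m ρ l y 2 x)]
    have h3 := mul_le_mul_of_nonneg_right (h1.trans h2) (sq_nonneg (u x))
    linarith [bW 0 x, bW 1 x, bW 2 x]
  have i1 : Integrable fun x => discErr m ρ l F y x ^ 2 * u x ^ 2 :=
    iT.mono' (((measurable_discErr D).pow_const 2).mul
      (hu.1.continuous.pow 2).measurable).aestronglyMeasurable (by
        filter_upwards [hb] with x hx
        rwa [Real.norm_eq_abs, abs_of_nonneg (by positivity)])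
  refine ⟨i1, (integral_mono_ae i1 iT hb).trans ?_⟩
  rw [integral_add (iu.const_mul _) (i012.const_mul 4),
    integral_const_mul, integral_const_mul, integral_add i01 (iW 2),
    integral_add (iW 0) (iW 1), ← ip_self]
  have p1 : 0 ≤ ip u u := by rw [ip_self]; exact integral_nonneg fun x => sq_nonneg _
  have p2 : 0 ≤ 2 * kin1 u u := by
    rw [kin_self]; exact Finset.sum_nonneg fun k _ => integral_nonneg fun x => sq_nonneg _
  set q := (K * ρ * M ^ 6 / (m : ℝ) ^ 2) ^ 2 with hq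
  have m6 : (1 : ℝ) ≤ M ^ 6 := one_le_pow₀ (by linarith)
  have q0 : 0 ≤ q := by positivity
  have q1 : c ^ 2 ≤ 10 ^ 32 * q := by
    calc c ^ 2 = 10 ^ 32 * (1 * ρ * M ^ 6 / (m : ℝ) ^ 2) ^ 2 := by rw [hc]; ring
      _ ≤ _ := by rw [hq]; gcongr
  have q2 : 21600 * K ^ 2 * ρ ^ 2 / (m : ℝ) ^ 4 ≤ 21600 * q := by
    calc _ = 21600 * (K * ρ * 1 / (m : ℝ) ^ 2) ^ 2 := by ring
      _ ≤ _ := by rw [hq]; gcongr
  have e : (10 ^ 17 * K * ρ * M ^ 6 / (m : ℝ) ^ 2) ^ 2 = 10 ^ 34 * q := by rw [hq]; ring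
  have n := fun i => (nW i).trans (mul_le_mul_of_nonneg_right q2 (add_nonneg p1 p2))
  have q3 := mul_le_mul_of_nonneg_right q1 p1
  have q4 := mul_nonneg q0 p1
  have q5 := mul_nonneg q0 p2
  rw [e]
  nlinarith [n 0, n 1, n 2]

theorem potOK_of_int {V : P3 → ℝ} (hm : Measurable V)
    (h : ∀ u, C1c u → Integrable fun x => V x ^ 2 * u x ^ 2) : PotOK V := by
  refine ⟨hm, fun a => ⟨Metric.closedBall a 1, Metric.closedBall_mem_nhds a one_pos, ?_⟩⟩
  have hfin : volume (Metric.closedBall a 1) ≠ ⊤ := (isCompact_closedBall a 1).measure_lt_top.ne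
  refine ((integrableOn_const (C := (1 : ℝ)) hfin).add
    (h _ (chi_c1c a one_pos)).integrableOn).mono' hm.aestronglyMeasurable ?_
  refine (ae_restrict_iff' measurableSet_closedBall).2 (Filter.Eventually.of_forall fun x hx => ?_)
  simp only [Pi.add_apply]
  rw [chi_one one_pos (mem_closedBall_iff_norm.1 hx), Real.norm_eq_abs, ← sq_abs]
  nlinarith [sq_nonneg (|V x| - 1), abs_nonneg (V x)]

end

end

end Vale.Agent.P370Z.DISC
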